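import Vale.Agent.P194.Filling

/-! The linear bound on the number of triangles. -/

namespace Vale.Agent.P194

open Equiv Sum

variable {V X : Type} {R : V → X → V → Prop} {D : Type} {Δ : Diagram (Amb R) D}

theorem tree_step {s : D} (hs : Δ.α s ≠ s) {g : FreeGroup (X ⊕ V)} (hg : Δ.a s = inr g) :
    Δ.a (Δ.φ s) = inr (g * FreeGroup.mk [Δ.lab s]) := by
  have h1 := Δ.step _ hs
  rw [hg] at h1
  generalize Δ.a (Δ.φ s) = b at h1
  generalize Δ.lab s = l at h1
  cases h1
  rfl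

theorem tree_word (hr : Δ.Reduced) (s : D) (g : FreeGroup (X ⊕ V)) (hg : Δ.a s = inr g) (n : ℕ)
    (hs : ∀ i < n, Δ.α ((Δ.φ ^ i) s) ≠ (Δ.φ ^ i) s) :
    Δ.a ((Δ.φ ^ n) s) =
      inr (g * FreeGroup.mk ((List.range n).map fun i => Δ.lab ((Δ.φ ^ i) s))) ∧
    FreeGroup.IsReduced ((List.range n).map fun i => Δ.lab ((Δ.φ ^ i) s)) := by
  constructor
  · induction n with
    | zero => simpa [← FreeGroup.one_eq_mk] using hg
    | succ n ih =>
      have h1 := tree_step (hs n (by omega)) (ih fun i hi => hs i (by omega))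
      rw [pow_succ', Perm.mul_apply, List.range_succ, List.map_append, ← FreeGroup.mul_mk,
        ← mul_assoc, h1]
      rfl
  · rw [FreeGroup.IsReduced, List.isChain_map]
    rcases n with _ | n
    · simp
    rw [List.isChain_range_succ]
    intro i hi e
    have h4 := hr.2 _ (hs i (by omega)) (by simpa [pow_succ'] using hs (i + 1) (by omega))
    by_contra hne
    apply h4
    simp only [Nat.succ_eq_add_one, pow_succ', Perm.mul_apply] at e hne
    refine Prod.ext e.symm ?_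
    simp only [linv]
    revert hne
    cases (Δ.lab ((Δ.φ ^ i) s)).2 <;> cases (Δ.lab (Δ.φ ((Δ.φ ^ i) s))).2 <;> simp

/-- The darts lifting to the tree are those of the marked face, and there are few of them. -/
theorem outer_face [Fintype D] [DecidableEq (X ⊕ V)] {z : D} {w : FreeGroup (X ⊕ V)}
    (hz : Marked Δ z (inr w) (inr 1)) (hr : Δ.Reduced) :
    ∃ O : Finset D, (∀ s, s ∈ O ↔ ∃ g, Δ.a s = inr g) ∧ O.card ≤ w.norm + 1 := by
  classical
  have nz : ∀ s, s ≠ z → Δ.α s ≠ s := fun s hs e => hs ((hz.1 s).mp e)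
  have hex : ∃ p, (Δ.φ ^ p) (Δ.φ z) = z := by
    refine ⟨orderOf Δ.φ - 1, ?_⟩
    have hp : 0 < orderOf Δ.φ := orderOf_pos _
    rw [← Perm.mul_apply, ← pow_succ, show orderOf Δ.φ - 1 + 1 = orderOf Δ.φ by omega,
      pow_orderOf_eq_one, Perm.one_apply]
  set p := Nat.find hex with hp
  have hp1 : (Δ.φ ^ p) (Δ.φ z) = z := Nat.find_spec hex
  have hp2 : ∀ i < p, (Δ.φ ^ i) (Δ.φ z) ≠ z := fun i hi => Nat.find_min hex hi
  obtain ⟨h1, h2⟩ := tree_word hr (Δ.φ z) 1 hz.2.2 p fun i hi => nz _ (hp2 i hi)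
  rw [hp1, hz.2.1, one_mul] at h1
  have h3 : w.norm = p := by
    rw [inr_injective h1, FreeGroup.norm, FreeGroup.toWord_mk, h2.reduce_eq]
    simp
  refine ⟨Finset.univ.filter fun s => ∃ g, Δ.a s = inr g, by simp, ?_⟩
  rw [h3, ← Finset.card_range (p + 1)]
  refine le_trans (Finset.card_le_card ?_)
    (Finset.card_image_le (f := fun i => (Δ.φ ^ i) (Δ.φ z)))
  intro s hs
  obtain ⟨g, hg⟩ : ∃ g, Δ.a s = inr g := by simpa using hs
  have hc : ∃ i : ℕ, (Δ.φ ^ i) s = z := by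
    by_contra hcon
    push Not at hcon
    exact not_tree hr s (fun i => nz _ (hcon i)) g hg
  have hc2 : ∀ i : ℕ, ∃ j < p + 1, (Δ.φ ^ i) z = (Δ.φ ^ j) (Δ.φ z) := by
    intro i
    induction i with
    | zero => exact ⟨p, by omega, hp1.symm⟩
    | succ i ih =>
      obtain ⟨j, hj, e⟩ := ih
      rw [pow_succ', Perm.mul_apply, e]
      by_cases hjp : j = p
      · exact ⟨0, by omega, by rw [hjp, hp1]; rfl⟩
      · exact ⟨j + 1, by omega, by rw [pow_succ', Perm.mul_apply]⟩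
  obtain ⟨i, hi⟩ := hc
  have hsc : Δ.φ.SameCycle z s := Perm.SameCycle.symm ⟨i, by simpa using hi⟩
  obtain ⟨n, -, rfl⟩ := hsc.exists_pow_eq'
  obtain ⟨j, hj, e⟩ := hc2 n
  exact Finset.mem_image.mpr ⟨j, Finset.mem_range.mpr hj, e.symm⟩

theorem inner_dart (hr : Δ.Reduced) (s : D) (hs : Δ.α s ≠ s) (h4 : ∀ g, Δ.a s ≠ inr g)
    (h5 : ∀ g, Δ.a (Δ.α s) ≠ inr g) : ∃ p q x b, Δ.a s = inl (some p) ∧
      Δ.a (Δ.φ s) = inl (some q) ∧ Δ.lab s = (inl x, b) ∧ SR R p (x, b) q := by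
  have h1 := Δ.step s hs
  have h2 := Δ.step (Δ.α s) (by rw [Δ.invol]; exact hs.symm)
  have h3 := hr.1 s hs
  rw [Δ.lab_α s hs] at h2
  generalize Δ.a s = a1 at *
  generalize Δ.a (Δ.φ s) = a2 at *
  generalize Δ.lab s = l at *
  generalize Δ.a (Δ.α s) = a3 at *
  generalize Δ.a (Δ.φ (Δ.α s)) = a4 at *
  cases h1 with
  | gam p q x b hpq => exact ⟨p, q, x, b, rfl, rfl, rfl, hpq⟩
  | out u =>
    simp only [linv, Bool.not_true] at h2
    cases h2 with
    | inn => exact absurd rfl h3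
    | tree g => exact absurd rfl (h5 g)
  | inn u =>
    simp only [linv, Bool.not_false] at h2
    cases h2 with
    | out => exact absurd rfl h3
    | tree g => exact absurd rfl (h5 g)
  | tree g l => exact absurd rfl (h4 g)

theorem card_le_outer [Fintype D] (h : SmallCanc R) {z : D} {w : FreeGroup (X ⊕ V)}
    (hz : Marked Δ z (inr w) (inr 1)) (hr : Δ.Reduced) (O : Finset D)
    (hO : ∀ s, s ∈ O ↔ ∃ g, Δ.a s = inr g) : Fintype.card D ≤ 168 * O.card := by
  classical
  have : Nonempty D := ⟨z⟩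
  have nz : ∀ s, s ≠ z → Δ.α s ≠ s := fun s hs e => hs ((hz.1 s).mp e)
  let Ex : Finset D := O ∪ O.image Δ.α
  have hEx : Ex.card ≤ 2 * O.card := by
    have h1 := Finset.card_union_le O (O.image Δ.α)
    have h2 : (O.image Δ.α).card ≤ O.card := Finset.card_image_le
    simp only [Ex]
    omega
  have hEx1 : ∀ s, s ∉ Ex ↔ s ∉ O ∧ Δ.α s ∉ O := by
    intro s
    simp only [Ex, Finset.mem_union, Finset.mem_image, not_or, not_exists, not_and]
    refine and_congr_right fun _ => ⟨fun H e => H _ e (Δ.invol s), fun H u hu e => ?_⟩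
    apply H
    rwa [← e, Δ.invol]
  have hEx2 : ∀ s, s ∉ Ex → Δ.α s ∉ Ex := by
    intro s hs
    rw [hEx1] at hs ⊢
    rw [Δ.invol]
    exact hs.symm
  have hEx3 : ∀ s, s ∉ Ex → Δ.α s ≠ s := by
    intro s hs
    apply nz
    rintro rfl
    exact ((hEx1 s).mp hs).1 ((hO s).mpr ⟨w, hz.2.1⟩)
  by_cases hV : Nonempty V
  swap
  · have hall : ∀ s, s ∈ Ex := by
      intro s
      by_contra hs
      obtain ⟨p, -⟩ := inner_dart hr s (hEx3 s hs)
        (fun g e => ((hEx1 s).mp hs).1 ((hO s).mpr ⟨g, e⟩))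
        (fun g e => ((hEx1 s).mp hs).2 ((hO _).mpr ⟨g, e⟩))
      exact hV ⟨p⟩
    have : Fintype.card D ≤ Ex.card := Finset.card_le_card fun s _ => hall s
    omega
  let a' : D → V := fun s => match Δ.a s with
    | inl (some p) => p
    | _ => Classical.choice hV
  have ha' : ∀ s p, Δ.a s = inl (some p) → a' s = p := by
    intro s p e
    simp only [a', e]
  have F4 : ∀ s, s ∉ Ex → ∃ l : X × Bool, Δ.lab s = (inl l.1, l.2) ∧
      SR R (a' s) l (a' (Δ.φ s)) ∧ Δ.a s = inl (some (a' s)) := by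
    intro s hs
    obtain ⟨p, q, x, b, h1, h2, h3, h4⟩ := inner_dart hr s (hEx3 s hs)
      (fun g e => ((hEx1 s).mp hs).1 ((hO s).mpr ⟨g, e⟩))
      (fun g e => ((hEx1 s).mp hs).2 ((hO _).mpr ⟨g, e⟩))
    rw [ha' _ _ h1, ha' _ _ h2]
    exact ⟨(x, b), h3, h4, h1⟩
  choose lab' hl hsr haa using F4
  have hlinv : ∀ s t hs ht, Δ.lab t = linv (Δ.lab s) ↔ lab' t ht = linv (lab' s hs) := by
    intro s t hs ht
    rw [hl s hs, hl t ht]
    simp [linv, Prod.ext_iff]
  have h1 := Δ.exact.euler Δ.invol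
  have h2 := finrank_invFun'_le_of_set Δ.φ Ex 7 (by norm_num) (by
    intro s hs p h0 h7 e
    have hn : ∀ i : ℕ, (Δ.φ ^ i) s ∉ Ex := by
      intro i e'
      exact hs _ e' ⟨i, by simp⟩
    refine h.girth p (fun i => a' ((Δ.φ ^ i) s)) (fun i => lab' _ (hn i)) h0 h7 ?_ ?_ ?_
    · intro i
      simpa [pow_succ'] using hsr _ (hn i)
    · intro i e'
      have h1 := (hlinv _ _ (hn i) (hn (i + 1))).mpr e'
      have h2 := hEx3 _ (hn (i + 1))
      rw [pow_succ', Perm.mul_apply] at h1 h2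
      exact hr.2 _ (hEx3 _ (hn i)) h2 h1
    · intro i
      simp only [pow_add, Perm.mul_apply, e])
  have h3 := finrank_invFun'_le_of_set (Δ.φ * Δ.α) Ex 3 (by norm_num) (by
    intro s hs i h0 h3 e
    have hsz : s ∉ Ex := fun e' => hs s e' (Perm.SameCycle.refl _ _)
    have hd : Δ.α s ∉ Ex := hEx2 s hsz
    have hb := hr.2 (Δ.α s) (hEx3 _ hd)
    have hs2 : Δ.φ (Δ.α s) ∉ Ex := by
      intro e'
      exact hs _ e' ⟨1, by simp⟩
    obtain rfl | rfl : i = 1 ∨ i = 2 := by omega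
    · simp only [pow_one, Perm.mul_apply] at e
      apply hb (hEx3 _ hs2)
      rw [e, Δ.lab_α s (hEx3 s hsz), linv_linv]
    · simp only [pow_two, Perm.mul_apply] at e
      set s2 := Δ.φ (Δ.α s) with hs2d
      have hc : Δ.α s2 ∉ Ex := hEx2 _ hs2
      have l1 : lab' (Δ.α s2) hc = linv (lab' s2 hs2) :=
        (hlinv _ _ hs2 hc).mp (Δ.lab_α _ (hEx3 _ hs2))
      have l2 : lab' (Δ.α s) hd = linv (lab' s hsz) :=
        (hlinv _ _ hsz hd).mp (Δ.lab_α _ (hEx3 _ hsz))
      have r1 := hsr s hsz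
      have r2 := (hsr _ hc).symm
      have r3 := hsr s2 hs2
      have r4 := (hsr _ hd).symm
      rw [l1, linv_linv, e] at r2
      rw [l2, linv_linv, ← hs2d] at r4
      have hne : lab' s hsz ≠ lab' s2 hs2 := by
        intro e'
        apply hb (hEx3 _ hs2)
        rw [hlinv _ _ hd hs2, l2, linv_linv, e']
      have := h.piece _ _ _ _ _ _ _ _ hne r1 r2 r4 r3
      apply hr.1 (Δ.α s) (hEx3 _ hd)
      rw [Δ.invol, haa s hsz, ← hs2d, haa s2 hs2, this])
  have h4 := finrank_invFun'_le_of_set Δ.α {z} 2 (by norm_num) (by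
    intro s hs i h0 h2
    have : i = 1 := by omega
    rw [this, pow_one]
    apply nz
    rintro rfl
    exact hs s (by simp) (Perm.SameCycle.refl _ _))
  have h5 : ((Fintype.card D : ℚ) + 2) ≤ (Module.finrank ℚ (invFun' Δ.φ) : ℚ) +
      (Module.finrank ℚ (invFun' (Δ.φ * Δ.α)) : ℚ) + (Module.finrank ℚ (invFun' Δ.α) : ℚ) := by
    exact_mod_cast h1
  have h6 : (Ex.card : ℚ) ≤ 2 * O.card := by exact_mod_cast hEx
  have h7 : (Fintype.card D : ℚ) ≤ 168 * O.card := by
    simp only [Finset.card_singleton] at h4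
    push_cast at h2 h3 h4
    linarith
  exact_mod_cast h7

/-- Homological linear isoperimetric inequality. -/
theorem filling (h : SmallCanc R) (L : List ((X ⊕ V) × Bool))
    (hL : ((L.map letter).prod : PresentedGroup (rels R)) = 1) (g0 : PresentedGroup (rels R)) :
    ∃ (ι : Type) (_ : Fintype ι)
      (T : ι → PresentedGroup (rels R) × PresentedGroup (rels R) × PresentedGroup (rels R)),
      Fintype.card ι ≤ 336 * L.length ∧
      (∀ i, Near (T i).1 (T i).2.1 ∧ Near (T i).2.1 (T i).2.2 ∧ Near (T i).2.2 (T i).1) ∧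
      ∀ ω : PresentedGroup (rels R) → PresentedGroup (rels R) → ℤ, (∀ a b, ω a b = - ω b a) →
        pathSum ω g0 L =
          ∑ i, (ω (T i).1 (T i).2.1 + ω (T i).2.1 (T i).2.2 + ω (T i).2.2 (T i).1) := by
  classical
  rcases L with _ | ⟨l0, L0⟩
  · exact ⟨Empty, inferInstance, Empty.elim, by simp, fun i => i.elim, fun ω _ => by simp [pathSum]⟩
  set L := l0 :: L0 with hLdef
  have hlen : 1 ≤ L.length := by simp [hLdef]
  have : Inhabited (X ⊕ V) := ⟨l0.1⟩
  obtain ⟨D, _, Δ, z, pos, hz, hr, hc, hstep, htree⟩ :=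
    exists_reduced h g0 (w := FreeGroup.mk L) (by rw [mk_eq_prod, hL])
  obtain ⟨O, hO, hOc⟩ := outer_face hz hr
  have hcard := card_le_outer h hz hr O hO
  have hnorm : (FreeGroup.mk L).norm ≤ L.length := FreeGroup.norm_mk_le
  have nz : ∀ s, s ≠ z → Δ.α s ≠ s := fun s hs e => hs ((hz.1 s).mp e)
  have hzO : z ∈ O := (hO z).mpr ⟨_, hz.2.1⟩
  have hOφ : ∀ s, s ∈ O → Δ.φ s ∈ O := by
    intro s hs
    by_cases hsz : s = z
    · rw [hsz]; exact (hO _).mpr ⟨_, hz.2.2⟩
    · obtain ⟨g, hg⟩ := (hO s).mp hs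
      exact (hO _).mpr ⟨_, tree_step (nz s hsz) hg⟩
  let apex : D → PresentedGroup (rels R) := fun s => match Δ.a s with
    | inl (some p) => pos s * (PresentedGroup.of (inr p))⁻¹
    | _ => pos s
  have hap : ∀ s, s ∉ O → Δ.φ s ∉ O ∧ apex (Δ.φ s) = apex s := by
    intro s hs
    have hsz : s ≠ z := by rintro rfl; exact hs hzO
    have h1 := Δ.step s (nz s hsz)
    have h2 := hstep s (nz s hsz)
    simp only [hO, apex, h2] at hs ⊢
    generalize Δ.a s = a1 at *
    generalize Δ.a (Δ.φ s) = a2 at *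
    generalize Δ.lab s = l at *
    cases h1 with
    | gam p q x b hpq =>
      refine ⟨by simp, ?_⟩
      simp only [← rel_sedge hpq, mul_inv_rev, mul_assoc, mul_inv_cancel_left]
    | out u => exact ⟨by simp, by simp [letter_true]⟩
    | inn u => exact ⟨by simp, by simp [letter_false]⟩
    | tree g l => exact absurd ⟨g, rfl⟩ hs
  have hnear : ∀ s, Near (apex s) (pos s) := by
    intro s
    simp only [apex]
    split
    · rename_i p _
      exact Or.inr ⟨(inr p, true), by simp [letter_true]⟩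
    · exact Or.inl rfl
  have hOφ' : ∀ s, Δ.φ s ∉ O ↔ s ∉ O :=
    fun s => ⟨fun H e => H (hOφ s e), fun H => (hap s H).1⟩
  refine ⟨{s // s ∉ O}, inferInstance, fun s => (apex s, pos (Δ.φ s), pos s), ?_, ?_, ?_⟩
  · have := Fintype.card_subtype_le (fun s => s ∉ O)
    have h2 : O.card ≤ 2 * L.length := by omega
    omega
  · rintro ⟨s, hs⟩
    have hsz : s ≠ z := by rintro rfl; exact hs hzO
    refine ⟨?_, ?_, (hnear s).symm⟩
    · have := hnear (Δ.φ s)
      rwa [(hap s hs).2] at this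
    · exact Near.symm (Or.inr ⟨_, hstep s (nz s hsz)⟩)
  · intro ω hω
    have hself : ∀ a, ω a a = 0 := fun a => by have := hω a a; omega
    let f : D → ℤ := fun s => ω (pos s) (pos (Δ.φ s))
    have s1 : ∑ s, f s = 0 := by
      have e1 := Equiv.sum_comp Δ.α f
      have e2 : ∑ s, f (Δ.α s) = ∑ s, - f s := by
        refine Finset.sum_congr rfl fun s _ => ?_
        simp only [f]
        rw [hc s, ← hc (Δ.α s), Δ.invol, hω]
      rw [Finset.sum_neg_distrib] at e2
      omega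
    let Ω : D → ℤ := fun s => match Δ.a s with
      | inr g => prim ω hω g0 g
      | _ => 0
    have hΩ : ∀ s g, Δ.a s = inr g → Ω s = prim ω hω g0 g := by
      intro s g e
      simp only [Ω, e]
    have s2 : ∑ s : {s // s ∈ O}, f s = pathSum ω g0 L := by
      have e1 : ∀ s : {s // s ∈ O}, f s = Ω (Δ.φ s) - Ω s +
          if s = ⟨z, hzO⟩ then pathSum ω g0 L else 0 := by
        rintro ⟨s, hs⟩
        by_cases hsz : s = z
        · subst hsz
          have := hc s
          rw [(hz.1 s).mpr rfl] at this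
          simp only [f, ← this, hself, if_true, hΩ _ _ hz.2.1, hΩ _ _ hz.2.2, prim_mk]
          have : prim ω hω g0 1 = 0 := rfl
          rw [this]
          ring
        · obtain ⟨g, hg⟩ := (hO s).mp hs
          have e2 : (⟨s, hs⟩ : {s // s ∈ O}) ≠ ⟨z, hzO⟩ := by simpa using hsz
          simp only [f, e2, if_false, hΩ _ _ hg, hΩ _ _ (tree_step (nz s hsz) hg), prim_step,
            hstep s (nz s hsz), htree s g hg]
          ring
      have hOφ2 : ∀ s, Δ.φ s ∈ O ↔ s ∈ O := fun s => not_iff_not.mp (hOφ' s)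
      have e3 := Equiv.sum_comp (Δ.φ.subtypePerm hOφ2) (fun s : {s // s ∈ O} => Ω s)
      simp only [Perm.subtypePerm_apply] at e3
      rw [Finset.sum_congr rfl fun s _ => e1 s, Finset.sum_add_distrib, Finset.sum_sub_distrib, e3]
      simp
    have s3 : ∑ s : {s // s ∈ O}, f s + ∑ s : {s // s ∉ O}, f s = ∑ s, f s := by
      rw [← Finset.sum_add_sum_compl O f, Finset.sum_coe_sort O f,
        Finset.sum_subtype Oᶜ (p := fun s => s ∉ O) (by simp) f]
    have e4 := Equiv.sum_comp (Δ.φ.subtypePerm hOφ') (fun s : {s // s ∉ O} => ω (apex s) (pos s))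
    simp only [Perm.subtypePerm_apply] at e4
    have e5 : ∑ s : {s // s ∉ O}, (ω (apex s) (pos (Δ.φ s)) + ω (pos (Δ.φ s)) (pos s) +
        ω (pos s) (apex s)) = ∑ s : {s // s ∉ O}, (ω (apex (Δ.φ s)) (pos (Δ.φ s)) - f s -
        ω (apex s) (pos s)) := by
      refine Finset.sum_congr rfl fun s _ => ?_
      rw [(hap s s.2).2, hω (pos (Δ.φ s)), hω (pos s) (apex s)]
      simp only [f]
      ring
    simp only
    rw [e5, Finset.sum_sub_distrib, Finset.sum_sub_distrib, e4]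
    rw [s1] at s3
    linarith

end Vale.Agent.P194
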