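import Vale.Agent.P194.Defs

/-! From a one-sided invertible matrix to a one-sided invertible element. -/

namespace Vale.Agent.P194

/-- Abstract corner lemma. -/
theorem corner_abstract {R S X : Type} [Ring R] [Ring S] [Fintype X] [DecidableEq X]
    (ι : R →+* S) (e : S) (u v : X → S)
    (hvu : ∀ y z, v y * u z = if y = z then e else 0)
    (hue : ∀ x, u x * e = u x) (hev : ∀ x, e * v x = v x)
    (hu : ∀ r x, ι r * u x = u x * ι r) (hv : ∀ r x, ι r * v x = v x * ι r)
    (he : ∀ r, ι r * e = 0 → r = 0)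
    (A B : Matrix X X R) (h : A * B = 1) (h' : B * A ≠ 1) :
    ∃ a b : S, a * b = 1 ∧ b * a ≠ 1 := by
  let Φ : Matrix X X R → S := fun M => ∑ x, ∑ y, u x * ι (M x y) * v y
  have hleft : ∀ (M : Matrix X X R) x, v x * Φ M = ∑ y, ι (M x y) * v y := by
    intro M x
    simp only [Φ, Finset.mul_sum, ← mul_assoc, hvu]
    rw [Finset.sum_eq_single x]
    · refine Finset.sum_congr rfl fun y _ => ?_
      rw [if_pos rfl, mul_assoc, hv, ← mul_assoc, hev]
    · intro z _ hne
      simp [Ne.symm hne]
    · simp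
  have hmul : ∀ M N : Matrix X X R, Φ M * Φ N = Φ (M * N) := by
    intro M N
    have : Φ M * Φ N = ∑ x, ∑ y, u x * ι (M x y) * (v y * Φ N) := by
      simp only [Φ, Finset.sum_mul, mul_assoc]
    rw [this]
    simp only [hleft]
    simp only [Φ, Matrix.mul_apply, map_sum, map_mul, Finset.mul_sum, Finset.sum_mul,
      mul_assoc]
    exact Finset.sum_congr rfl fun x _ => Finset.sum_comm
  have hinj : ∀ M N : Matrix X X R, Φ M = Φ N → M = N := by
    intro M N hMN
    ext x y
    have h1 : ∀ M : Matrix X X R, v x * Φ M * u y = ι (M x y) * e := by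
      intro M
      rw [hleft, Finset.sum_mul]
      simp only [mul_assoc, hvu]
      rw [Finset.sum_eq_single y] <;> simp +contextual
    have h2 := h1 M
    rw [hMN, h1 N] at h2
    rw [← sub_eq_zero]
    apply he
    rw [map_sub, sub_mul, h2, sub_self]
  have hprod : ∀ M N : Matrix X X R,
      (Φ M + (1 - Φ 1)) * (Φ N + (1 - Φ 1)) = Φ (M * N) + (1 - Φ 1) := by
    intro M N
    simp only [add_mul, mul_add, mul_sub, sub_mul, mul_one, one_mul, hmul]
    abel
  refine ⟨Φ A + (1 - Φ 1), Φ B + (1 - Φ 1), ?_, fun e1 => h' (hinj _ _ ?_)⟩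
  · rw [hprod, h]; abel
  · rw [hprod] at e1
    rw [← sub_eq_zero, ← sub_eq_zero.2 e1]; abel

theorem corner_aux {K X G H : Type} [Field K] [Fintype K] (c : K) (hc0 : c ≠ 0) (hc1 : c ≠ 1)
    [Fintype X] [DecidableEq X] [Group G] [Group H] (x0 : X)
    (dd : (X → Kˣ) →* H) (tt : Equiv.Perm X →* H) (hdd : Function.Injective dd)
    (hrel : ∀ π b, tt π * dd b = dd (fun x => b (π⁻¹ x)) * tt π)
    (A B : Matrix X X (MonoidAlgebra K G)) (h : A * B = 1) (h' : B * A ≠ 1) :
    ∃ a b : MonoidAlgebra K (G × H), a * b = 1 ∧ b * a ≠ 1 := by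
  classical
  let σ : H →* MonoidAlgebra K (G × H) := (MonoidAlgebra.of K (G × H)).comp (MonoidHom.inr G H)
  let d : (X → Kˣ) →* MonoidAlgebra K (G × H) := σ.comp dd
  let t : Equiv.Perm X →* MonoidAlgebra K (G × H) := σ.comp tt
  let ι : MonoidAlgebra K G →+* MonoidAlgebra K (G × H) :=
    MonoidAlgebra.mapDomainRingHom K (MonoidHom.inl G H)
  let N : K := (Fintype.card (X → Kˣ) : K)
  have hN : N ≠ 0 := by
    have h1 : ((Fintype.card Kˣ : ℕ) : K) = -1 := by
      rw [Fintype.card_units, Nat.cast_sub Fintype.card_pos, FiniteField.cast_card_eq_zero]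
      simp
    simp only [N, Fintype.card_fun, Nat.cast_pow, h1]
    exact pow_ne_zero _ (neg_ne_zero.2 one_ne_zero)
  let e : MonoidAlgebra K (G × H) := N⁻¹ • ∑ a : X → Kˣ, (((a x0)⁻¹ : Kˣ) : K) • d a
  have hde : ∀ b, d b * e = ((b x0 : Kˣ) : K) • e := by
    intro b
    simp only [e, mul_smul_comm, Finset.mul_sum, ← map_mul]
    rw [smul_comm, Finset.smul_sum (r := ((b x0 : Kˣ) : K))]
    congr 1
    refine Fintype.sum_equiv (Equiv.mulLeft b) _ _ fun a => ?_
    simp only [Equiv.coe_mulLeft, smul_smul, Pi.mul_apply, ← Units.val_mul]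
    congr 2
    rw [mul_inv_rev, mul_comm (b x0), inv_mul_cancel_right]
  have hed : ∀ b, e * d b = ((b x0 : Kˣ) : K) • e := by
    intro b
    rw [← hde]
    simp only [e, mul_smul_comm, smul_mul_assoc, Finset.mul_sum, Finset.sum_mul, ← map_mul,
      mul_comm b]
  have hee : e * e = e := by
    conv_lhs => lhs; simp only [e]
    simp only [smul_mul_assoc, Finset.sum_mul, hde, smul_smul, Units.inv_mul, one_smul,
      Finset.sum_const, Finset.card_univ]
    rw [← Nat.cast_smul_eq_nsmul K, smul_smul, inv_mul_cancel₀ hN, one_smul]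
  have htd : ∀ π b, t π * d b = d (fun x => b (π⁻¹ x)) * t π := by
    intro π b
    simp only [t, d, MonoidHom.comp_apply, ← map_mul, hrel]
  have hzero : ∀ π : Equiv.Perm X, π⁻¹ x0 ≠ x0 → e * t π * e = 0 := by
    intro π hπ
    let b : X → Kˣ := Pi.mulSingle x0 (Units.mk0 c hc0)
    have h1 : e * t π * (d b * e) = c • (e * t π * e) := by
      rw [hde, mul_smul_comm]; simp [b]
    have h2 : e * t π * (d b * e) = e * t π * e := by
      rw [← mul_assoc, mul_assoc e, htd, ← mul_assoc, hed]
      simp only [b, Pi.mulSingle_eq_of_ne hπ, Units.val_one, one_smul]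
    have h3 : (c - 1) • (e * t π * e) = 0 := by rw [sub_smul, one_smul, ← h1, h2, sub_self]
    exact (smul_eq_zero.1 h3).resolve_left (sub_ne_zero.2 hc1)
  have hισ : ∀ r g, ι r * σ g = σ g * ι r := by
    intro r g
    induction r using MonoidAlgebra.induction_linear with
    | zero => simp
    | add a b ha hb => simp only [map_add, add_mul, mul_add, ha, hb]
    | single m r => simp [ι, σ, MonoidAlgebra.single_mul_single]
  have hιe : ∀ r, ι r * e = e * ι r := by
    intro r
    simp only [e, d, mul_smul_comm, smul_mul_assoc, Finset.mul_sum, Finset.sum_mul,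
      MonoidHom.comp_apply, hισ]
  refine corner_abstract ι e (fun x => t (Equiv.swap x x0) * e)
    (fun x => e * t (Equiv.swap x x0)) ?_ ?_ ?_ ?_ ?_ ?_ A B h h'
  · intro y z
    rw [← mul_assoc, mul_assoc e, ← map_mul]
    split_ifs with hyz
    · rw [hyz, Equiv.swap_mul_self, map_one, mul_one, hee]
    · apply hzero
      rw [mul_inv_rev, Equiv.swap_inv, Equiv.swap_inv, Equiv.Perm.mul_apply,
        Equiv.swap_apply_right]
      intro h1
      apply hyz
      have := congrArg (Equiv.swap z x0) h1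
      simpa using this
  · intro x; rw [mul_assoc, hee]
  · intro x; rw [← mul_assoc, hee]
  · intro r x
    rw [← mul_assoc, mul_assoc _ e, ← hιe, ← mul_assoc]
    simp only [t, MonoidHom.comp_apply, hισ]
  · intro r x
    rw [← mul_assoc, hιe, mul_assoc, mul_assoc]
    simp only [t, MonoidHom.comp_apply, hισ]
  · intro r hr
    ext g
    have h1 := congrArg (fun a : MonoidAlgebra K (G × H) => a.coeff (g, 1)) hr
    simp only [e, d, σ, mul_smul_comm, Finset.mul_sum, MonoidHom.comp_apply,
      MonoidAlgebra.of_apply, MonoidAlgebra.coeff_smul, MonoidAlgebra.coeff_sum,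
      Finsupp.smul_apply, Finsupp.finsetSum_apply, MonoidAlgebra.coeff_mul_single_apply,
      MonoidAlgebra.coeff_zero, Finsupp.zero_apply, smul_eq_mul, mul_one] at h1
    rw [Finset.sum_eq_single 1] at h1
    · have h2 : (ι r).coeff (g, 1) = r.coeff g :=
        Finsupp.mapDomain_apply (f := MonoidHom.inl G H) (fun a b e => congrArg Prod.fst e) _ g
      simpa [hN, h2] using h1
    · intro a _ ha
      have h2 : (ι r).coeff ((g, 1) * (MonoidHom.inr G H (dd a))⁻¹) = 0 := by
        refine Finsupp.mapDomain_of_notMem_range (f := MonoidHom.inl G H) _ _ ?_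
        rintro ⟨g', hg'⟩
        apply ha
        have h3 := congrArg Prod.snd hg'
        simp only [MonoidHom.inl_apply, MonoidHom.inr_apply, Prod.snd_mul, Prod.snd_inv,
          one_mul] at h3
        have h4 : dd a = dd 1 := by
          rw [map_one]; exact inv_eq_one.1 h3.symm
        exact hdd h4
      rw [h2, mul_zero, mul_zero]
    · simp

theorem corner {K X G : Type} [Field K] [Fintype K] (hK : ∃ c : K, c ≠ 0 ∧ c ≠ 1)
    [Fintype X] [DecidableEq X] [Group G]
    (A B : Matrix X X (MonoidAlgebra K G)) (h : A * B = 1) (h' : B * A ≠ 1) :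
    ∃ (H : Type) (_ : Group H) (_ : Finite H), ∃ a b : MonoidAlgebra K (G × H),
      a * b = 1 ∧ b * a ≠ 1 := by
  classical
  obtain ⟨c, hc0, hc1⟩ := hK
  have hX : Nonempty X := by
    by_contra hX
    rw [not_nonempty_iff] at hX
    exact h' (Subsingleton.elim _ _)
  obtain ⟨x0⟩ := hX
  refine ⟨(X → Kˣ) ⋊[mulAutArrow] Equiv.Perm X, inferInstance,
    Finite.of_equiv _ SemidirectProduct.equivProd.symm,
    corner_aux c hc0 hc1 x0 SemidirectProduct.inl SemidirectProduct.inr
      SemidirectProduct.inl_injective (fun π b => ?_) A B h h'⟩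
  have h3 : (mulAutArrow π b : X → Kˣ) = fun x => b (π⁻¹ x) := rfl
  rw [← h3, SemidirectProduct.inl_aut, map_inv, inv_mul_cancel_right]

end Vale.Agent.P194
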