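import Vale.Agent.P194.Insert

/-! The vertices of a small cancellation graph embed in the presented group. -/

namespace Vale.Agent.P194

open Equiv Sum

variable {V X : Type}

/-- The ambient graph: the cone over the graph `R`, and the Cayley tree of the free group. -/
inductive Amb (R : V → X → V → Prop) :
    Option V ⊕ FreeGroup (X ⊕ V) → (X ⊕ V) × Bool → Option V ⊕ FreeGroup (X ⊕ V) → Prop
  | gam (v w : V) (x : X) (b : Bool) (h : SR R v (x, b) w) :
      Amb R (inl (some v)) (inl x, b) (inl (some w))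
  | out (v : V) : Amb R (inl none) (inr v, true) (inl (some v))
  | inn (v : V) : Amb R (inl (some v)) (inr v, false) (inl none)
  | tree (g : FreeGroup (X ⊕ V)) (l : (X ⊕ V) × Bool) :
      Amb R (inr g) l (inr (g * FreeGroup.mk [l]))

theorem SR.symm {R : V → X → V → Prop} {v w : V} {l : X × Bool} (h : SR R v l w) :
    SR R w (linv l) v := by
  obtain ⟨x, b⟩ := l
  cases b <;> simp_all [SR, linv]

theorem SR.det {R : V → X → V → Prop} (h : SmallCanc R) {v w w' : V} {l : X × Bool}
    (h1 : SR R v l w) (h2 : SR R v l w') : w = w' := by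
  obtain ⟨x, b⟩ := l
  cases b
  · simp only [SR, Bool.false_eq_true, false_and, true_and, false_or] at h1 h2
    exact h.in_unique _ _ _ _ h1 h2
  · simp only [SR, Bool.true_eq_false, false_and, true_and, or_false] at h1 h2
    exact h.out_unique _ _ _ _ h1 h2

theorem mk_linv {Y : Type} (l : Y × Bool) : FreeGroup.mk [linv l] = (FreeGroup.mk [l])⁻¹ := by
  rw [FreeGroup.inv_mk]
  rfl

theorem folded_amb {R : V → X → V → Prop} (h : SmallCanc R) : Folded (Amb R) where
  symm := by
    intro a l b hab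
    cases hab with
    | gam v w x b h => exact Amb.gam w v x (!b) h.symm
    | out v => exact Amb.inn v
    | inn v => exact Amb.out v
    | tree g l =>
      have := Amb.tree (R := R) (g * FreeGroup.mk [l]) (linv l)
      rwa [mk_linv, mul_inv_cancel_right] at this
  det := by
    intro a l b b' h1 h2
    cases h1 with
    | gam v w x b h1 =>
      cases h2 with
      | gam _ w' _ _ h2 => rw [SR.det h h1 h2]
    | out v => cases h2; rfl
    | inn v => cases h2; rfl
    | tree g l => cases h2; rfl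

section VanKampen

variable {R : V → X → V → Prop}

theorem Has1.transport_group [Inhabited (X ⊕ V)] (hS : Folded (Amb R)) (k : FreeGroup (X ⊕ V)) :
    ∀ g h : FreeGroup (X ⊕ V), Has1 (Amb R) (inr g) (inr h) →
      Has1 (Amb R) (inr (g * k)) (inr (h * k)) := by
  induction k using FreeGroup.induction_on with
  | C1 => intro g h H; simpa using H
  | of y => intro g h H; exact H.transport hS (Amb.tree g (y, true)) (Amb.tree h (y, true))
  | inv_of y _ =>
    intro g h H
    have := H.transport hS (Amb.tree g (y, false)) (Amb.tree h (y, false))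
    exact this
  | mul a b ha hb =>
    intro g h H
    simpa [mul_assoc] using hb _ _ (ha _ _ H)

/-- Van Kampen lemma. -/
theorem has1_of_mem [Inhabited (X ⊕ V)] (hS : Folded (Amb R)) {w : FreeGroup (X ⊕ V)}
    (hw : w ∈ Subgroup.normalClosure (rels R)) (g h : FreeGroup (X ⊕ V))
    (H : Has1 (Amb R) (inr g) (inr h)) : Has1 (Amb R) (inr (g * w)) (inr h) := by
  let N : Subgroup (FreeGroup (X ⊕ V)) :=
    { carrier := {w | (∀ g h, Has1 (Amb R) (inr g) (inr h) → Has1 (Amb R) (inr (g * w)) (inr h)) ∧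
        ∀ g h, Has1 (Amb R) (inr g) (inr h) → Has1 (Amb R) (inr (g * w⁻¹)) (inr h)}
      one_mem' := ⟨fun g h H => by simpa using H, fun g h H => by simpa using H⟩
      mul_mem' := by
        rintro a b ⟨ha, ha'⟩ ⟨hb, hb'⟩
        exact ⟨fun g h H => by simpa [mul_assoc] using hb _ _ (ha _ _ H),
          fun g h H => by simpa [mul_assoc] using ha' _ _ (hb' _ _ H)⟩
      inv_mem' := by
        rintro a ⟨ha, ha'⟩
        exact ⟨ha', by simpa using ha⟩ }
  have hN : N.Normal := ⟨by
    rintro n ⟨hn, hn'⟩ k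
    refine ⟨fun g h H => ?_, fun g h H => ?_⟩
    · simpa [mul_assoc] using
        Has1.transport_group hS k⁻¹ _ _ (hn _ _ (Has1.transport_group hS k _ _ H))
    · simpa [mul_assoc] using
        Has1.transport_group hS k⁻¹ _ _ (hn' _ _ (Has1.transport_group hS k _ _ H))⟩
  have hr : rels R ⊆ N := by
    rintro _ ⟨v, x, w, hvw, rfl⟩
    refine ⟨fun g h H => ?_, fun g h H => ?_⟩
    · have := H.pillow hS (Amb.tree _ (inr v, true)) (Amb.tree _ (inl x, true))
        (Amb.tree _ (inr w, false)) (Amb.out v) (Amb.gam v w x true (Or.inl ⟨rfl, hvw⟩))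
        (Amb.inn w)
      simp only [mul_assoc] at this ⊢
      exact this
    · have := H.pillow hS (Amb.tree _ (inr w, true)) (Amb.tree _ (inl x, false))
        (Amb.tree _ (inr v, false)) (Amb.out w) (Amb.gam w v x false (Or.inr ⟨rfl, hvw⟩))
        (Amb.inn v)
      simp only [mul_inv_rev, inv_inv, mul_assoc] at this ⊢
      exact this
  exact (Subgroup.normalClosure_le_normal hr hw).1 g h H

end VanKampen

section Reduced

variable {R : V → X → V → Prop} {D : Type} [Fintype D] {Δ : Diagram (Amb R) D}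

/-- In a reduced diagram a face all of whose darts are unmarked does not lift to the tree. -/
theorem not_tree (hr : Δ.Reduced) (s : D) (hs : ∀ i : ℕ, Δ.α ((Δ.φ ^ i) s) ≠ (Δ.φ ^ i) s)
    (g : FreeGroup (X ⊕ V)) : Δ.a s ≠ inr g := by
  classical
  intro hg
  have key : ∀ n : ℕ, Δ.a ((Δ.φ ^ n) s) =
      inr (g * FreeGroup.mk ((List.range n).map fun i => Δ.lab ((Δ.φ ^ i) s))) := by
    intro n
    induction n with
    | zero => simpa [← FreeGroup.one_eq_mk] using hg
    | succ n ih =>
      have h1 := Δ.step _ (hs n)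
      rw [ih] at h1
      rw [pow_succ', Perm.mul_apply, List.range_succ, List.map_append, ← FreeGroup.mul_mk,
        ← mul_assoc]
      generalize Δ.a (Δ.φ ((Δ.φ ^ n) s)) = b at h1
      cases h1
      rfl
  have hp : 0 < orderOf Δ.φ := orderOf_pos _
  have h1 := key (orderOf Δ.φ)
  rw [pow_orderOf_eq_one, Perm.one_apply, hg] at h1
  have h2 : FreeGroup.mk ((List.range (orderOf Δ.φ)).map fun i => Δ.lab ((Δ.φ ^ i) s)) = 1 := by
    have := inr_injective h1
    exact (left_eq_mul.mp this)
  have h3 : FreeGroup.IsReduced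
      ((List.range (orderOf Δ.φ)).map fun i => Δ.lab ((Δ.φ ^ i) s)) := by
    rw [FreeGroup.IsReduced, List.isChain_map]
    obtain ⟨n, hn⟩ : ∃ n, orderOf Δ.φ = n + 1 := ⟨orderOf Δ.φ - 1, by omega⟩
    rw [hn, List.isChain_range_succ]
    intro i _ e
    have h4 := hr.2 _ (hs i) (by simpa [pow_succ'] using hs (i + 1))
    by_contra hne
    apply h4
    simp only [Nat.succ_eq_add_one, pow_succ', Perm.mul_apply] at e hne
    refine Prod.ext e.symm ?_
    simp only [linv]
    revert hne
    cases (Δ.lab ((Δ.φ ^ i) s)).2 <;> cases (Δ.lab (Δ.φ ((Δ.φ ^ i) s))).2 <;> simp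
  have h4 := congrArg FreeGroup.toWord h2
  rw [FreeGroup.toWord_mk, h3.reduce_eq, FreeGroup.toWord_one] at h4
  have h5 := congrArg List.length h4
  simp only [List.length_map, List.length_range, List.length_nil] at h5
  omega

theorem reduced_trivial (h : SmallCanc R) {z : D} {v v' : V}
    (hz : Marked Δ z (inl (some v')) (inl (some v))) (hr : Δ.Reduced) : v = v' := by
  classical
  have nz : ∀ s, s ≠ z → Δ.α s ≠ s := fun s hs e => hs ((hz.1 s).mp e)
  have nz' : ∀ s, s ≠ z → Δ.α s ≠ z := by
    intro s hs e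
    apply hs
    rw [← Δ.invol s, e]
    exact (hz.1 z).mpr rfl
  -- no dart lifts to the tree
  have F1 : ∀ s g, Δ.a s ≠ inr g := by
    intro s g hg
    have key : ∀ i : ℕ, ∃ g', Δ.a ((Δ.φ ^ i) s) = inr g' := by
      intro i
      induction i with
      | zero => exact ⟨g, hg⟩
      | succ i ih =>
        obtain ⟨g', hg'⟩ := ih
        have h0 : (Δ.φ ^ i) s ≠ z := by
          intro e
          rw [e, hz.2.1] at hg'
          cases hg'
        have h1 := Δ.step _ (nz _ h0)
        rw [hg'] at h1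
        rw [pow_succ', Perm.mul_apply]
        generalize Δ.a (Δ.φ ((Δ.φ ^ i) s)) = b at h1
        cases h1
        exact ⟨_, rfl⟩
    refine not_tree hr s (fun i => nz _ ?_) g hg
    intro e
    obtain ⟨g', hg'⟩ := key i
    rw [e, hz.2.1] at hg'
    cases hg'
  -- every unmarked dart lifts to an edge of the graph
  have F2 : ∀ s, s ≠ z → ∃ p q x b, Δ.a s = inl (some p) ∧ Δ.a (Δ.φ s) = inl (some q) ∧
      Δ.lab s = (inl x, b) ∧ SR R p (x, b) q := by
    intro s hs
    have h1 := Δ.step s (nz s hs)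
    have h2 := Δ.step (Δ.α s) (nz _ (nz' s hs))
    have h3 := hr.1 s (nz s hs)
    have h4 := F1 s
    have h5 := F1 (Δ.α s)
    rw [Δ.lab_α s (nz s hs)] at h2
    generalize Δ.a s = a1 at *
    generalize Δ.a (Δ.φ s) = a2 at *
    generalize Δ.lab s = l at *
    generalize Δ.a (Δ.α s) = a3 at *
    generalize Δ.a (Δ.φ (Δ.α s)) = a4 at *
    cases h1 with
    | gam p q x b hpq => exact ⟨p, q, x, b, rfl, rfl, rfl, hpq⟩
    | out u =>
      simp only [linv, Bool.not_true] at h2
      cases h2 with
      | inn => exact absurd rfl h3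
      | tree g => exact absurd rfl (h5 g)
    | inn u =>
      simp only [linv, Bool.not_false] at h2
      cases h2 with
      | out => exact absurd rfl h3
      | tree g => exact absurd rfl (h5 g)
    | tree g l => exact absurd rfl (h4 g)
  have F3 : ∀ s, ∃ p, Δ.a s = inl (some p) := by
    intro s
    by_cases hs : s = z
    · exact ⟨v', hs ▸ hz.2.1⟩
    · obtain ⟨p, _, _, _, h1, _⟩ := F2 s hs
      exact ⟨p, h1⟩
  choose a' ha' using F3
  have F4 : ∀ s, s ≠ z → ∃ l : X × Bool, Δ.lab s = (inl l.1, l.2) ∧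
      SR R (a' s) l (a' (Δ.φ s)) := by
    intro s hs
    obtain ⟨p, q, x, b, h1, h2, h3, h4⟩ := F2 s hs
    rw [ha'] at h1 h2
    cases h1
    cases h2
    exact ⟨(x, b), h3, h4⟩
  choose lab' hl hsr using F4
  have hlinv : ∀ s t hs ht, Δ.lab t = linv (Δ.lab s) ↔ lab' t ht = linv (lab' s hs) := by
    intro s t hs ht
    rw [hl s hs, hl t ht]
    simp [linv, Prod.ext_iff]
  have hcard := Δ.exact.card_le_one Δ.invol z (fun s e => (hz.1 s).mp e) ?_ ?_
  · have h1 : Δ.φ z = z := Fintype.card_le_one_iff.mp hcard _ _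
    have h2 := hz.2.2
    rw [h1, hz.2.1] at h2
    cases h2
    rfl
  · intro s hs i h0 h3 e
    have hsz : s ≠ z := by rintro rfl; exact hs (Perm.SameCycle.refl _ _)
    have hd : Δ.α s ≠ z := nz' s hsz
    have hb := hr.2 (Δ.α s) (nz _ hd)
    have hs2 : Δ.φ (Δ.α s) ≠ z := by
      intro e'
      exact hs ⟨1, by simpa using e'⟩
    obtain rfl | rfl : i = 1 ∨ i = 2 := by omega
    · simp only [pow_one, Perm.mul_apply] at e
      apply hb (nz _ hs2)
      rw [e, Δ.lab_α s (nz s hsz), linv_linv]
    · simp only [pow_two, Perm.mul_apply] at e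
      set s2 := Δ.φ (Δ.α s) with hs2d
      have hc : Δ.α s2 ≠ z := nz' _ hs2
      have l1 : lab' (Δ.α s2) hc = linv (lab' s2 hs2) :=
        (hlinv _ _ hs2 hc).mp (Δ.lab_α _ (nz _ hs2))
      have l2 : lab' (Δ.α s) hd = linv (lab' s hsz) :=
        (hlinv _ _ hsz hd).mp (Δ.lab_α _ (nz _ hsz))
      have r1 := hsr s hsz
      have r2 := (hsr _ hc).symm
      have r3 := hsr s2 hs2
      have r4 := (hsr _ hd).symm
      rw [l1, linv_linv, e] at r2
      rw [l2, linv_linv, ← hs2d] at r4
      have hne : lab' s hsz ≠ lab' s2 hs2 := by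
        intro e'
        apply hb (nz _ hs2)
        rw [hlinv _ _ hd hs2, l2, linv_linv, e']
      have := h.piece _ _ _ _ _ _ _ _ hne r1 r2 r4 r3
      apply hr.1 (Δ.α s) (nz _ hd)
      rw [Δ.invol, ha', ha', ← hs2d, this]
  · intro s hs p h0 h7 e
    have hn : ∀ i : ℕ, (Δ.φ ^ i) s ≠ z := by
      intro i e'
      exact hs ⟨i, by simpa using e'⟩
    refine h.girth p (fun i => a' ((Δ.φ ^ i) s)) (fun i => lab' _ (hn i)) h0 h7 ?_ ?_ ?_
    · intro i
      simpa [pow_succ'] using hsr _ (hn i)
    · intro i e'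
      have h1 := (hlinv _ _ (hn i) (hn (i + 1))).mpr e'
      have h2 := nz _ (hn (i + 1))
      rw [pow_succ', Perm.mul_apply] at h1 h2
      exact hr.2 _ (nz _ (hn i)) h2 h1
    · intro i
      simp only [pow_add, Perm.mul_apply, e]

end Reduced

theorem embed {V X : Type} (R : V → X → V → Prop) (h : SmallCanc R) :
    Function.Injective fun v : V =>
      (PresentedGroup.of (Sum.inr v) : PresentedGroup (rels R)) := by
  intro v v' e
  have : Inhabited (X ⊕ V) := ⟨inr v⟩
  have hS := folded_amb h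
  have hw : (FreeGroup.of (inr v))⁻¹ * FreeGroup.of (inr v') ∈ Subgroup.normalClosure (rels R) :=
    QuotientGroup.eq.mp e
  have H := has1_of_mem hS hw 1 1 (Has1.refl _)
  have a1 := Amb.tree (R := R) (1 * ((FreeGroup.of (inr v))⁻¹ * FreeGroup.of (inr v')))
    (inr v', false)
  have a2 := Amb.tree (R := R) (1 * ((FreeGroup.of (inr v))⁻¹ * FreeGroup.of (inr v')) *
    FreeGroup.mk [(inr v', false)]) (inr v, true)
  have e2 : 1 * ((FreeGroup.of (inr v))⁻¹ * FreeGroup.of (inr v')) *
      FreeGroup.mk [(inr v', false)] * FreeGroup.mk [(inr v, true)] =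
      (1 : FreeGroup (X ⊕ V)) := by
    have : FreeGroup.mk [((inr v' : X ⊕ V), false)] = (FreeGroup.of (inr v'))⁻¹ := rfl
    rw [this]
    have : FreeGroup.mk [((inr v : X ⊕ V), true)] = FreeGroup.of (inr v) := rfl
    rw [this]
    group
  rw [e2] at a2
  obtain ⟨D, _, Δ, z, hz, hr⟩ := (H.bigon hS a1 a2 (Amb.inn v') (Amb.out v)).reduce hS
  exact reduced_trivial h hz hr

end Vale.Agent.P194
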