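import Vale.Agent.P194.Defs

/-! The labelled graph: lines as sources and sinks, Wenger girth, subdivided edges. -/

namespace Vale.Agent.P194

abbrev BB (F : Type) : Type := (F × (F × F × F)) × ((F × (F × (F × F × F))) × F)

namespace Graph

/-- Reduced paths of length `n + 1` with prescribed first letter. -/
def RPath {V X : Type} (S : V → X × Bool → V → Prop) : ℕ → V → X × Bool → V → Prop
  | 0, a, l, b => S a l b
  | n + 1, a, l, b => ∃ a' l', S a l a' ∧ l' ≠ linv l ∧ RPath S n a' l' b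

lemma rpath_of_seq {V X : Type} (S : V → X × Bool → V → Prop) (a : ℕ → V) (l : ℕ → X × Bool)
    (h1 : ∀ i, S (a i) (l i) (a (i + 1))) (h2 : ∀ i, l (i + 1) ≠ linv (l i)) (n : ℕ) :
    ∀ k, RPath S n (a k) (l k) (a (k + n + 1)) := by
  induction n with
  | zero => exact fun k => h1 k
  | succ n ih =>
    intro k
    refine ⟨a (k + 1), l (k + 1), h1 k, h2 k, ?_⟩
    have e : k + (n + 1) + 1 = k + 1 + n + 1 := by ring
    rw [e]
    exact ih (k + 1)

section Wenger

variable {F : Type} [Field F]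

/-- Incidence of a point and a line in the Wenger graph. -/
def Inc (p u : F × F × F) : Prop :=
  p.2.1 = u.2.1 + p.1 * u.1 ∧ p.2.2 = u.2.2 + p.1 * u.1 ^ 2

/-- One step in the Wenger graph. -/
def WS (u v : Bool × (F × F × F)) : Prop :=
  (u.1 = true ∧ v.1 = false ∧ Inc u.2 v.2) ∨ (u.1 = false ∧ v.1 = true ∧ Inc v.2 u.2)

/-- Non-backtracking walks of length `n + 1` with prescribed first two vertices. -/
def WPath : ℕ → Bool × (F × F × F) → Bool × (F × F × F) → Bool × (F × F × F) → Prop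
  | 0, u, v, z => WS u v ∧ z = v
  | n + 1, u, v, z => WS u v ∧ ∃ w, WPath n v w z ∧ u.2.1 ≠ w.2.1

lemma ws_not {u v : Bool × (F × F × F)} (h : WS u v) : v.1 = !u.1 := by
  rcases h with ⟨a, b, -⟩ | ⟨a, b, -⟩ <;> simp [a, b]

lemma ws_true {u v : Bool × (F × F × F)} (h : WS u v) (hu : u.1 = true) :
    v.1 = false ∧ Inc u.2 v.2 := by
  rcases h with ⟨-, b, c⟩ | ⟨a, -, -⟩
  · exact ⟨b, c⟩
  · simp [a] at hu

lemma ws_false {u v : Bool × (F × F × F)} (h : WS u v) (hu : u.1 = false) :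
    v.1 = true ∧ Inc v.2 u.2 := by
  rcases h with ⟨a, -, -⟩ | ⟨-, b, c⟩
  · simp [a] at hu
  · exact ⟨b, c⟩

lemma inc_four {p p' u u' : F × F × F} (h1 : Inc p u) (h2 : Inc p' u) (h3 : Inc p' u')
    (h4 : Inc p u') (hp : p.1 ≠ p'.1) (hu : u.1 ≠ u'.1) : False := by
  have : (p.1 - p'.1) * (u.1 - u'.1) = 0 := by
    linear_combination h2.1 - h1.1 - h3.1 + h4.1
  rcases mul_eq_zero.1 this with h | h
  · exact hp (sub_eq_zero.1 h)
  · exact hu (sub_eq_zero.1 h)

lemma inc_six {p p' p'' u u' u'' : F × F × F} (h1 : Inc p u) (h2 : Inc p' u) (h3 : Inc p' u')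
    (h4 : Inc p'' u') (h5 : Inc p'' u'') (h6 : Inc p u'') (hp : p'.1 ≠ p''.1)
    (hu : u.1 ≠ u'.1) (hu' : u'.1 ≠ u''.1) : False := by
  have : (p'.1 - p''.1) * ((u'.1 - u.1) * (u'.1 - u''.1)) = 0 := by
    linear_combination (h2.2 - h1.2 - h3.2 + h4.2 - h5.2 + h6.2) -
      (u.1 + u''.1) * (h2.1 - h1.1 - h3.1 + h4.1 - h5.1 + h6.1)
  rcases mul_eq_zero.1 this with h | h
  · exact hp (sub_eq_zero.1 h)
  · rcases mul_eq_zero.1 h with h | h
    · exact hu (sub_eq_zero.1 h).symm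
    · exact hu' (sub_eq_zero.1 h)

lemma no_wpath {m : ℕ} (hm : m < 6) (u v : Bool × (F × F × F)) : ¬ WPath m u v u := by
  intro h
  interval_cases m
  · obtain ⟨h0, rfl⟩ := h
    simpa using ws_not h0
  · obtain ⟨-, w, ⟨-, rfl⟩, hne⟩ := h
    exact hne rfl
  · obtain ⟨h0, w, ⟨h1, w', ⟨h2, rfl⟩, -⟩, -⟩ := h
    have a0 := ws_not h0
    have a1 := ws_not h1
    have a2 := ws_not h2
    rw [a1, a0] at a2
    simp at a2
  · obtain ⟨h0, w, ⟨h1, w', ⟨h2, w'', ⟨h3, rfl⟩, -⟩, n1⟩, n0⟩ := h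
    cases hu : u.1 with
    | true =>
      obtain ⟨b0, c0⟩ := ws_true h0 hu
      obtain ⟨b1, c1⟩ := ws_false h1 b0
      obtain ⟨b2, c2⟩ := ws_true h2 b1
      obtain ⟨-, c3⟩ := ws_false h3 b2
      exact inc_four c0 c1 c2 c3 n0 n1
    | false =>
      obtain ⟨b0, c0⟩ := ws_false h0 hu
      obtain ⟨b1, c1⟩ := ws_true h1 b0
      obtain ⟨b2, c2⟩ := ws_false h2 b1
      obtain ⟨-, c3⟩ := ws_true h3 b2
      exact inc_four c0 c3 c2 c1 n1 n0
  · obtain ⟨h0, w, ⟨h1, w', ⟨h2, w'', ⟨h3, w3, ⟨h4, rfl⟩, -⟩, -⟩, -⟩, -⟩ := h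
    have a0 := ws_not h0
    have a1 := ws_not h1
    have a2 := ws_not h2
    have a3 := ws_not h3
    have a4 := ws_not h4
    rw [a3, a2, a1, a0] at a4
    simp at a4
  · obtain ⟨h0, w, ⟨h1, w', ⟨h2, w'', ⟨h3, w3, ⟨h4, w4, ⟨h5, rfl⟩, -⟩, n3⟩, n2⟩, n1⟩, n0⟩ := h
    cases hu : u.1 with
    | true =>
      obtain ⟨b0, c0⟩ := ws_true h0 hu
      obtain ⟨b1, c1⟩ := ws_false h1 b0
      obtain ⟨b2, c2⟩ := ws_true h2 b1
      obtain ⟨b3, c3⟩ := ws_false h3 b2
      obtain ⟨b4, c4⟩ := ws_true h4 b3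
      obtain ⟨-, c5⟩ := ws_false h5 b4
      exact inc_six c0 c1 c2 c3 c4 c5 n2 n1 n3
    | false =>
      obtain ⟨b0, c0⟩ := ws_false h0 hu
      obtain ⟨b1, c1⟩ := ws_true h1 b0
      obtain ⟨b2, c2⟩ := ws_false h2 b1
      obtain ⟨b3, c3⟩ := ws_true h3 b2
      obtain ⟨b4, c4⟩ := ws_false h4 b3
      obtain ⟨-, c5⟩ := ws_true h5 b4
      exact inc_six c5 c0 c1 c2 c3 c4 n1 n0 n2

/-- The permutation of the middle slope coordinate. -/
def sigma (s : F) (p : F × F × F) : F × F × F :=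
  (s + p.1, p.2.1 - p.1 * (s + p.1), p.2.2 - p.1 * (s + p.1) ^ 2)

/-- Its inverse. -/
def tau (s : F) (u : F × F × F) : F × F × F :=
  (u.1 - s, u.2.1 + (u.1 - s) * u.1, u.2.2 + (u.1 - s) * u.1 ^ 2)

lemma sigma_tau (s : F) (u : F × F × F) : sigma s (tau s u) = u := by
  obtain ⟨a, b, c⟩ := u
  simp [sigma, tau]

lemma tau_sigma (s : F) (p : F × F × F) : tau s (sigma s p) = p := by
  obtain ⟨a, b, c⟩ := p
  simp [sigma, tau]

lemma inc_sigma (s : F) (p : F × F × F) : Inc p (sigma s p) := by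
  constructor <;> simp [sigma]

end Wenger

section Main

variable {F : Type} [Field F]

/-- Ordinary vertices: a side, an intercept and a slope. -/
abbrev V0 (F : Type) : Type := Bool × BB F × BB F

/-- Slope of the sink reached along the letter `x`. -/
def nxt (lam : F × BB F → F) (x : F × BB F) (η : BB F) : BB F :=
  (((lam x)⁻¹ * η.1.1, sigma x.1 η.1.2), η.2)

/-- Slope of the source reached against the letter `x`. -/
def prv (lam : F × BB F → F) (x : F × BB F) (η : BB F) : BB F :=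
  ((lam x * η.1.1, tau x.1 η.1.2), η.2)

lemma nxt_prv {lam : F × BB F → F} (hlam : ∀ x, lam x ≠ 0) (x : F × BB F) (η : BB F) :
    nxt lam x (prv lam x η) = η := by
  obtain ⟨⟨c, j⟩, T⟩ := η
  simp [nxt, prv, sigma_tau, hlam x]

lemma prv_nxt {lam : F × BB F → F} (hlam : ∀ x, lam x ≠ 0) (x : F × BB F) (η : BB F) :
    prv lam x (nxt lam x η) = η := by
  obtain ⟨⟨c, j⟩, T⟩ := η
  simp [nxt, prv, tau_sigma, hlam x]

/-- The unsubdivided graph. -/
def R0 (lam : F × BB F → F) (v : V0 F) (x : F × BB F) (w : V0 F) : Prop :=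
  v.1 = true ∧ w.1 = false ∧ v.2.2.1.1 ≠ 0 ∧ x.2 = v.2.1 + x.1 • v.2.2 ∧
    w.2.2 = nxt lam x v.2.2 ∧ x.2 = w.2.1 + x.1 • w.2.2

/-- The fixed slope coordinate attached to a letter. -/
def TT (y : F × BB F) : (F × (F × (F × F × F))) × F := ((y.1, y.2.1), 0)

/-- The special slope attached to a letter. -/
def spec (x : F × BB F) : BB F := ((1, 0), TT x)

/-- Source of the subdivided edge. -/
def src (x : F × BB F) : V0 F := (true, x.2 - x.1 • spec x, spec x)

/-- Sink of the subdivided edge. -/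
def snk (lam : F × BB F → F) (x : F × BB F) : V0 F :=
  (false, x.2 - x.1 • nxt lam x (spec x), nxt lam x (spec x))

lemma r0_src_snk (lam : F × BB F → F) (x : F × BB F) : R0 lam (src x) x (snk lam x) := by
  refine ⟨rfl, rfl, ?_, ?_, rfl, ?_⟩ <;> simp [src, snk, spec]

lemma r0_out {lam : F × BB F → F} {v w w' : V0 F} {x : F × BB F} (h : R0 lam v x w)
    (h' : R0 lam v x w') : w = w' := by
  obtain ⟨-, a2, -, -, a5, a6⟩ := h
  obtain ⟨-, b2, -, -, b5, b6⟩ := h'
  have e : w.2.2 = w'.2.2 := a5.trans b5.symm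
  refine Prod.ext (a2.trans b2.symm) (Prod.ext ?_ e)
  rw [e] at a6
  exact add_right_cancel (a6.symm.trans b6)

lemma r0_in {lam : F × BB F → F} (hlam : ∀ x, lam x ≠ 0) {v v' w : V0 F} {x : F × BB F}
    (h : R0 lam v x w) (h' : R0 lam v' x w) : v = v' := by
  obtain ⟨a1, -, -, a4, a5, -⟩ := h
  obtain ⟨b1, -, -, b4, b5, -⟩ := h'
  have e : v.2.2 = v'.2.2 := by
    rw [← prv_nxt hlam x v.2.2, ← a5, b5, prv_nxt hlam]
  refine Prod.ext (a1.trans b1.symm) (Prod.ext ?_ e)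
  rw [e] at a4
  exact add_right_cancel (a4.symm.trans b4)

/-- The subdivided graph. -/
def RR (lam : F × BB F → F) : V0 F ⊕ (F × BB F) → F × BB F → V0 F ⊕ (F × BB F) → Prop
  | Sum.inl v, x, Sum.inl w => R0 lam v x w ∧ v.2.2 ≠ spec x
  | Sum.inl v, x, Sum.inr y => y = x ∧ v = src x
  | Sum.inr y, x, Sum.inl w => y = x ∧ w = snk lam x
  | Sum.inr _, _, Sum.inr _ => False

lemma sr0_line {lam : F × BB F → F} {v w : V0 F} {l : (F × BB F) × Bool}
    (h : SR (R0 lam) v l w) :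
    (l.2 = v.1 ∧ l.1.2 = v.2.1 + l.1.1 • v.2.2) ∧
      (l.2 = !w.1 ∧ l.1.2 = w.2.1 + l.1.1 • w.2.2) := by
  rcases h with ⟨h0, h1, h2, -, h4, -, h6⟩ | ⟨h0, h1, h2, -, h4, -, h6⟩
  · exact ⟨⟨h0.trans h1.symm, h4⟩, by simp [h0, h2], h6⟩
  · exact ⟨⟨h0.trans h2.symm, h6⟩, by simp [h0, h1], h4⟩

lemma sr_inl {lam : F × BB F → F} {v : V0 F} {l : (F × BB F) × Bool}
    {w : V0 F ⊕ (F × BB F)} (h : SR (RR lam) (Sum.inl v) l w) :
    l.2 = v.1 ∧ l.1.2 = v.2.1 + l.1.1 • v.2.2 := by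
  cases w with
  | inl w =>
    rcases h with ⟨h0, h1, -⟩ | ⟨h0, h1, -⟩
    · exact (sr0_line (Or.inl ⟨h0, h1⟩)).1
    · exact (sr0_line (Or.inr ⟨h0, h1⟩)).1
  | inr y =>
    rcases h with ⟨h0, -, h1⟩ | ⟨h0, -, h1⟩
    · rw [h1]
      exact (sr0_line (lam := lam) (Or.inl ⟨h0, r0_src_snk lam l.1⟩)).1
    · rw [h1]
      exact (sr0_line (Or.inr ⟨h0, r0_src_snk lam l.1⟩)).1

lemma sr_inr {lam : F × BB F → F} {y : F × BB F} {l : (F × BB F) × Bool}
    {w : V0 F ⊕ (F × BB F)} (h : SR (RR lam) (Sum.inr y) l w) : y = l.1 ∧ ∃ v, w = Sum.inl v := by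
  cases w with
  | inl w =>
    rcases h with ⟨-, h1, -⟩ | ⟨-, h1, -⟩
    · exact ⟨h1, w, rfl⟩
    · exact ⟨h1, w, rfl⟩
  | inr y =>
    rcases h with ⟨-, h1⟩ | ⟨-, h1⟩
    · exact h1.elim
    · exact h1.elim

lemma sr_inl_inl {lam : F × BB F → F} {v w : V0 F} {l : (F × BB F) × Bool}
    (h : SR (RR lam) (Sum.inl v) l (Sum.inl w)) : SR (R0 lam) v l w := by
  rcases h with ⟨h0, h1, -⟩ | ⟨h0, h1, -⟩
  · exact Or.inl ⟨h0, h1⟩
  · exact Or.inr ⟨h0, h1⟩

lemma sr_through {lam : F × BB F → F} {v w : V0 F} {y : F × BB F} {l l' : (F × BB F) × Bool}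
    (h : SR (RR lam) (Sum.inl v) l (Sum.inr y)) (h' : SR (RR lam) (Sum.inr y) l' (Sum.inl w))
    (hne : l' ≠ linv l) : l' = l ∧ SR (R0 lam) v l w := by
  obtain ⟨x, b⟩ := l
  obtain ⟨x', b'⟩ := l'
  rcases h with ⟨h0, h1, h2⟩ | ⟨h0, h1, h2⟩ <;> rcases h' with ⟨k0, k1, k2⟩ | ⟨k0, k1, k2⟩ <;>
    simp only at h0 h1 h2 k0 k1 k2 <;> subst h0 h1 h2 k0 k1 k2
  · exact ⟨rfl, Or.inl ⟨rfl, r0_src_snk lam _⟩⟩
  · exact absurd rfl hne
  · exact absurd rfl hne
  · exact ⟨rfl, Or.inr ⟨rfl, r0_src_snk lam _⟩⟩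

lemma contract {lam : F × BB F → F} (n : ℕ) : ∀ (a b : V0 F) (l : (F × BB F) × Bool),
    RPath (SR (RR lam)) n (Sum.inl a) l (Sum.inl b) → ∃ m ≤ n, RPath (SR (R0 lam)) m a l b := by
  induction n using Nat.strong_induction_on with
  | _ n ih =>
    intro a b l h
    cases n with
    | zero => exact ⟨0, le_rfl, sr_inl_inl h⟩
    | succ n =>
      obtain ⟨a', l', h1, h2, h3⟩ := h
      cases a' with
      | inl a' =>
        obtain ⟨m, hm, h4⟩ := ih n (by omega) a' b l' h3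
        exact ⟨m + 1, by omega, a', l', sr_inl_inl h1, h2, h4⟩
      | inr y =>
        cases n with
        | zero => exact ⟨0, by omega, (sr_through h1 h3 h2).2⟩
        | succ n =>
          obtain ⟨a'', l'', k1, k2, k3⟩ := h3
          obtain ⟨-, v, rfl⟩ := sr_inr k1
          obtain ⟨e, k4⟩ := sr_through h1 k1 h2
          obtain ⟨m, hm, h4⟩ := ih n (by omega) v b l'' k3
          exact ⟨m + 1, by omega, v, l'', k4, e ▸ k2, h4⟩

/-- The Wenger vertex under an ordinary vertex. -/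
def JJ (v : V0 F) : Bool × (F × F × F) := (v.1, v.2.2.1.2)

lemma sr0_ws {lam : F × BB F → F} {v w : V0 F} {l : (F × BB F) × Bool}
    (h : SR (R0 lam) v l w) : WS (JJ v) (JJ w) ∧
      ((l.2 = true → (JJ w).2.1 = l.1.1 + (JJ v).2.1) ∧
        (l.2 = false → (JJ v).2.1 = l.1.1 + (JJ w).2.1)) := by
  rcases h with ⟨h0, h1, h2, -, -, h5, -⟩ | ⟨h0, h1, h2, -, -, h5, -⟩
  · refine ⟨Or.inl ⟨h1, h2, ?_⟩, fun _ => ?_, fun h => by simp [h0] at h⟩
    · simp only [JJ, h5, nxt]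
      exact inc_sigma _ _
    · simp only [JJ, h5, nxt, sigma]
  · refine ⟨Or.inr ⟨h2, h1, ?_⟩, fun h => by simp [h0] at h, fun _ => ?_⟩
    · simp only [JJ, h5, nxt]
      exact inc_sigma _ _
    · simp only [JJ, h5, nxt, sigma]

lemma sr0_nb {lam : F × BB F → F} {u v w : V0 F} {l l' : (F × BB F) × Bool}
    (h : SR (R0 lam) u l v) (h' : SR (R0 lam) v l' w) (hne : l' ≠ linv l) :
    (JJ u).2.1 ≠ (JJ w).2.1 := by
  obtain ⟨-, a1, a2⟩ := sr0_line h
  obtain ⟨⟨b1, b2⟩, -⟩ := sr0_line h'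
  obtain ⟨-, c1, c2⟩ := sr0_ws h
  obtain ⟨-, d1, d2⟩ := sr0_ws h'
  have hb : l'.2 = !l.2 := by rw [a1, b1]; simp
  intro e
  apply hne
  have e1 : l'.1.1 = l.1.1 := by
    cases hl : l.2 with
    | true =>
      have k1 := c1 hl
      have k2 := d2 (by rw [hb, hl]; rfl)
      rw [e] at k1
      exact add_right_cancel (k2.symm.trans k1)
    | false =>
      have k1 := c2 hl
      have k2 := d1 (by rw [hb, hl]; rfl)
      rw [e] at k1
      exact add_right_cancel (k2.symm.trans k1)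
  refine Prod.ext (Prod.ext e1 ?_) hb
  show l'.1.2 = l.1.2
  rw [a2, b2, e1]

lemma to_wpath {lam : F × BB F → F} (m : ℕ) : ∀ (a b : V0 F) (l : (F × BB F) × Bool),
    RPath (SR (R0 lam)) m a l b → ∃ a1, SR (R0 lam) a l a1 ∧ WPath m (JJ a) (JJ a1) (JJ b) := by
  induction m with
  | zero => exact fun a b l h => ⟨b, h, (sr0_ws h).1, rfl⟩
  | succ m ih =>
    rintro a b l ⟨a', l', h1, h2, h3⟩
    obtain ⟨a1, k1, k2⟩ := ih a' b l' h3
    exact ⟨a', h1, (sr0_ws h1).1, JJ a1, k2, sr0_nb h1 k1 h2⟩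

lemma smallCanc {lam : F × BB F → F} (hlam : ∀ x, lam x ≠ 0) : SmallCanc (RR lam) where
  out_unique := by
    rintro (v | y) x (w | z) (w' | z') h h'
    · rw [r0_out h.1 h'.1]
    · exact absurd (by rw [h'.2]; rfl) h.2
    · exact absurd (by rw [h.2]; rfl) h'.2
    · rw [h.1, h'.1]
    · rw [h.2, h'.2]
    · exact h'.elim
    · exact h.elim
    · exact h.elim
  in_unique := by
    rintro (v | y) (v' | y') x (w | z) h h'
    · rw [r0_in hlam h.1 h'.1]
    · rw [h.2, h'.2]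
    · have h1 := h.1
      rw [h'.2] at h1
      exact absurd (by rw [r0_in hlam h1 (r0_src_snk lam x)]; rfl) h.2
    · exact h'.elim
    · have h1 := h'.1
      rw [h.2] at h1
      exact absurd (by rw [r0_in hlam h1 (r0_src_snk lam x)]; rfl) h'.2
    · exact h.elim
    · rw [h.1, h'.1]
    · exact h.elim
  piece := by
    rintro (v | y) (v' | y') l l' b b' c c' hne h1 h2 h3 h4
    · obtain ⟨a1, a2⟩ := sr_inl h1
      obtain ⟨b1, b2⟩ := sr_inl h2
      obtain ⟨c1, c2⟩ := sr_inl h3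
      obtain ⟨-, d2⟩ := sr_inl h4
      have hs : l.1.1 - l'.1.1 ≠ 0 := by
        intro e
        have e' := sub_eq_zero.1 e
        exact hne (Prod.ext (Prod.ext e' (by rw [a2, b2, e'])) (a1.trans b1.symm))
      have e : v.2.2 = v'.2.2 := by
        have k : (l.1.1 - l'.1.1) • v.2.2 = (l.1.1 - l'.1.1) • v'.2.2 := by
          have k1 : (l.1.1 - l'.1.1) • v.2.2 = l.1.2 - l'.1.2 := by
            rw [a2, b2, sub_smul]
            abel
          have k2 : (l.1.1 - l'.1.1) • v'.2.2 = l.1.2 - l'.1.2 := by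
            rw [c2, d2, sub_smul]
            abel
          rw [k1, k2]
        exact smul_right_injective _ hs k
      congr 1
      refine Prod.ext (a1.symm.trans c1) (Prod.ext ?_ e)
      rw [e] at a2
      exact add_right_cancel (a2.symm.trans c2)
    · exact absurd (Prod.ext ((sr_inr h3).1.symm.trans (sr_inr h4).1)
        ((sr_inl h1).1.trans (sr_inl h2).1.symm)) hne
    · exact absurd (Prod.ext ((sr_inr h1).1.symm.trans (sr_inr h2).1)
        ((sr_inl h3).1.trans (sr_inl h4).1.symm)) hne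
    · rw [(sr_inr h1).1, (sr_inr h3).1]
  girth := by
    intro p a l hp0 hp h1 h2 h3
    obtain ⟨n, rfl⟩ : ∃ n, p = n + 1 := ⟨p - 1, by omega⟩
    obtain ⟨k, v, hk⟩ : ∃ k v, a k = Sum.inl v := by
      cases h0 : a 0 with
      | inl v => exact ⟨0, v, h0⟩
      | inr y =>
        have := h1 0
        rw [h0] at this
        obtain ⟨-, v, hv⟩ := sr_inr this
        exact ⟨1, v, hv⟩
    have h4 := rpath_of_seq _ a l h1 h2 n k
    rw [add_assoc, h3 k, hk] at h4
    obtain ⟨m, hm, h5⟩ := contract n v v _ h4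
    obtain ⟨a1, -, h6⟩ := to_wpath m v v _ h5
    exact no_wpath (by omega) _ _ h6

lemma lineInd_of {a η : BB F} {x : F × BB F} (h : x.2 = a + x.1 • η) :
    lineInd (F := F) a η x = 1 := by
  simp [lineInd, h]

lemma of_lineInd {a η : BB F} {x : F × BB F} (h : lineInd (F := F) a η x ≠ 0) :
    x.2 = a + x.1 • η := by
  by_contra h'
  simp [lineInd, h'] at h

lemma smul_mem (c : F) (a η : BB F) : c • lineInd (F := F) a η ∈ lineCode F (BB F) :=
  Submodule.smul_mem _ _ (Submodule.subset_span ⟨(a, η), rfl⟩)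

variable [DecidableEq (F × BB F)]

/-- Outgoing weights. -/
noncomputable def outW : V0 F ⊕ (F × BB F) → F × BB F → F
  | Sum.inl (true, a, η) => η.1.1 • lineInd (F := F) a η
  | Sum.inl (false, _, _) => 0
  | Sum.inr y => Pi.single y 1

/-- Incoming weights. -/
noncomputable def innW (lam : F × BB F → F) : V0 F ⊕ (F × BB F) → F × BB F → F
  | Sum.inl (true, _, _) => 0
  | Sum.inl (false, a, η) => fun x => lam x * (η.1.1 • lineInd (F := F) a η) x
  | Sum.inr y => Pi.single y 1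

omit [DecidableEq (F × BB F)] in
/-- The part of a vertex. -/
def partW : V0 F ⊕ (F × BB F) →
    ((F × (F × (F × F × F))) × F) × ((F × (F × (F × F × F))) × F)
  | Sum.inl v => (v.2.2.2, v.2.1.2)
  | Sum.inr y => (TT y, y.2.2 - y.1 • TT y)

lemma r0_wt {lam : F × BB F → F} (hlam : ∀ x, lam x ≠ 0) {v w : V0 F} {x : F × BB F}
    (h : R0 lam v x w) :
    outW (Sum.inl v) x = v.2.2.1.1 ∧ innW lam (Sum.inl w) x = v.2.2.1.1 := by
  obtain ⟨b, a, η⟩ := v
  obtain ⟨b', a', η'⟩ := w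
  obtain ⟨h1, h2, -, h4, h5, h6⟩ := h
  simp only at h1 h2 h4 h5 h6
  subst h1 h2
  constructor
  · simp [outW, lineInd_of h4]
  · simp only [innW, Pi.smul_apply, lineInd_of h6]
    rw [h5]
    simp [nxt, hlam x]

omit [DecidableEq (F × BB F)] in
lemma r0_part {lam : F × BB F → F} {v w : V0 F} {x : F × BB F} (h : R0 lam v x w) :
    partW (Sum.inl v) = partW (Sum.inl w) := by
  obtain ⟨-, -, -, h4, h5, h6⟩ := h
  have e : w.2.2.2 = v.2.2.2 := by rw [h5]; rfl
  refine Prod.ext e.symm ?_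
  have k := congrArg Prod.snd (h4.symm.trans h6)
  simp only [Prod.snd_add, Prod.smul_snd, e] at k
  exact add_right_cancel k

omit [DecidableEq (F × BB F)] in
lemma part_src (x : F × BB F) : partW (Sum.inl (src x)) = partW (Sum.inr x) := rfl

/-- The weighted structure. -/
noncomputable def weighted (lam : F × BB F → F) (hlam : ∀ x, lam x ≠ 0)
    (q : (F × BB F → F) →ₗ[F] (F × BB F → F))
    (hq1 : ∀ u ∈ lineCode F (BB F), q u = u)
    (hq2 : ∀ u ∈ lineCode F (BB F), q (fun x => lam x * u x) = 0) :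
    Weighted (I := ((F × (F × (F × F × F))) × F) × ((F × (F × (F × F × F))) × F))
      (RR lam) q where
  out := outW
  inn := innW lam
  part := partW
  star := Sum.inr
  base := Sum.inl (true, 0, ((1, 0), (0, 1)))
  out_edge := by
    rintro (⟨b, a, η⟩ | y) x h
    · cases b with
      | false => exact absurd rfl h
      | true =>
        simp only [outW, Pi.smul_apply, smul_eq_mul, mul_ne_zero_iff] at h
        have h2 := of_lineInd h.2
        by_cases hs : η = spec x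
        · refine ⟨Sum.inr x, rfl, ?_⟩
          subst hs
          refine Prod.ext rfl (Prod.ext ?_ rfl)
          exact eq_sub_of_add_eq h2.symm
        · exact ⟨Sum.inl (false, x.2 - x.1 • nxt lam x η, nxt lam x η),
            ⟨rfl, rfl, h.1, h2, rfl, by simp⟩, hs⟩
    · have : y = x := by
        by_contra hne
        exact h (Pi.single_eq_of_ne' hne _)
      exact ⟨Sum.inl (snk lam x), this, rfl⟩
  inn_edge := by
    rintro (⟨b, a, η⟩ | y) x h
    · cases b with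
      | true => exact absurd rfl h
      | false =>
        simp only [innW, Pi.smul_apply, smul_eq_mul, mul_ne_zero_iff] at h
        have h2 := of_lineInd h.2.2
        have h3 : R0 lam (true, x.2 - x.1 • prv lam x η, prv lam x η) x (false, a, η) :=
          ⟨rfl, rfl, mul_ne_zero h.1 h.2.1, by simp, (nxt_prv hlam x η).symm, h2⟩
        by_cases hs : prv lam x η = spec x
        · refine ⟨Sum.inr x, rfl, ?_⟩
          rw [hs] at h3
          exact r0_out h3 (r0_src_snk lam x)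
        · exact ⟨Sum.inl _, h3, hs⟩
    · have : y = x := by
        by_contra hne
        exact h (Pi.single_eq_of_ne' hne _)
      exact ⟨Sum.inl (src x), this, rfl⟩
  edge_wt := by
    rintro (v | y) x (w | z) h
    · exact (r0_wt hlam h.1).1.trans (r0_wt hlam h.1).2.symm
    · obtain ⟨rfl, rfl⟩ := h
      rw [(r0_wt hlam (r0_src_snk lam z)).1]
      simp [innW, src, spec]
    · obtain ⟨rfl, rfl⟩ := h
      rw [(r0_wt hlam (r0_src_snk lam y)).2]
      simp [outW, src, spec]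
    · exact h.elim
  edge_part := by
    rintro (v | y) x (w | z) h
    · exact r0_part h.1
    · obtain ⟨rfl, rfl⟩ := h
      exact part_src _
    · obtain ⟨rfl, rfl⟩ := h
      exact (part_src _).symm.trans (r0_part (r0_src_snk lam y))
    · exact h.elim
  star_out := fun _ => rfl
  star_inn := fun _ => rfl
  reg := by
    rintro (⟨b, a, η⟩ | y) h
    · cases b with
      | true => exact ⟨hq1 _ (smul_mem _ _ _), map_zero q⟩
      | false => exact ⟨map_zero q, hq2 _ (smul_mem _ _ _)⟩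
    · exact absurd rfl (h y)
  part_inj := by
    intro y y' h
    have h1 : TT y = TT y' := congrArg Prod.fst h
    have h2 : y.2.2 - y.1 • TT y = y'.2.2 - y'.1 • TT y' := congrArg Prod.snd h
    have h3 : y.1 = y'.1 := congrArg (fun z => z.1.1) h1
    have h4 : y.2.1 = y'.2.1 := congrArg (fun z => z.1.2) h1
    rw [h1, h3] at h2
    exact Prod.ext h3 (Prod.ext h4 (sub_left_injective h2))
  base_part := by
    intro y h
    have h1 : (1 : F) = 0 := congrArg (fun z => z.1.2) h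
    exact one_ne_zero h1
  base_out := by
    intro h
    have h1 := congrFun h (0, 0)
    simp [outW, lineInd] at h1

end Main

end Graph

theorem exists_graph {F : Type} [Field F] [Fintype F] [DecidableEq (F × BB F)]
    (lam : F × BB F → F) (hlam : ∀ x, lam x ≠ 0)
    (q : (F × BB F → F) →ₗ[F] (F × BB F → F))
    (hq1 : ∀ u ∈ lineCode F (BB F), q u = u)
    (hq2 : ∀ u ∈ lineCode F (BB F), q (fun x => lam x * u x) = 0) :
    ∃ (V I : Type) (_ : Fintype V) (R : V → F × BB F → V → Prop),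
      SmallCanc R ∧ Nonempty (Weighted (I := I) R q) :=
  ⟨Graph.V0 F ⊕ (F × BB F), _, inferInstance, Graph.RR lam, Graph.smallCanc hlam,
    ⟨Graph.weighted lam hlam q hq1 hq2⟩⟩

end Vale.Agent.P194
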