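import Vale.Agent.P194.Defs

/-! A one-sided invertible matrix over the group algebra from weighted graph data. -/

namespace Vale.Agent.P194

theorem matrix_q_apply {K X : Type} [Field K] [Fintype X] [DecidableEq X]
    (q : (X → K) →ₗ[K] (X → K)) (u : X → K) (z : X) :
    ∑ x, u x * q (Pi.single x 1) z = q u z := by
  conv_rhs => rw [pi_eq_sum_univ' u]
  simp [map_sum, Finset.sum_apply]

theorem matrix_not_df {K V X I G : Type} [Field K] [Fintype V] [Fintype X] [DecidableEq X]
    [Group G] (R : V → X → V → Prop)
    (hout : ∀ v x w w', R v x w → R v x w' → w = w')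
    (hin : ∀ v v' x w, R v x w → R v' x w → v = v')
    (q : (X → K) →ₗ[K] (X → K)) (W : Weighted (I := I) R q)
    (g : V → G) (ξ : X → G) (hg : Function.Injective g)
    (hrel : ∀ v x w, R v x w → g v * ξ x = g w) :
    ∃ A B : Matrix X X (MonoidAlgebra K G), A * B = 1 ∧ B * A ≠ 1 := by
  classical
  let s : G →* MonoidAlgebra K G := MonoidAlgebra.of K G
  let α : I → X → MonoidAlgebra K G := fun i x =>
    ∑ v, (if W.part v = i then W.out v x else 0) • s (g v)
  let β : I → X → MonoidAlgebra K G := fun i x =>
    ∑ v, (if W.part v = i then W.inn v x else 0) • s (g v)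
  let B : Matrix X X (MonoidAlgebra K G) := Matrix.of fun x z =>
    ((Pi.single x 1 : X → K) z - q (Pi.single x 1) z) • (1 : MonoidAlgebra K G) +
      q (Pi.single x 1) z • s (ξ x)
  have key : ∀ i x, α i x * s (ξ x) = β i x := by
    intro i x
    have h1 : ∀ v, ((if W.part v = i then W.out v x else 0) • s (g v)) * s (ξ x) =
        ∑ w, (if W.part v = i ∧ R v x w then W.out v x else 0) • s (g w) := by
      intro v
      by_cases h0 : W.out v x = 0
      · simp [h0]
      obtain ⟨w, hw⟩ := W.out_edge v x h0
      rw [Finset.sum_eq_single w]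
      · rw [smul_mul_assoc, ← map_mul, hrel v x w hw]
        simp [hw]
      · intro w' _ hne
        rw [if_neg fun h => hne (hout v x w' w h.2 hw), zero_smul]
      · simp
    have h2 : ∀ w, (if W.part w = i then W.inn w x else 0) • s (g w) =
        ∑ v, (if W.part v = i ∧ R v x w then W.out v x else 0) • s (g w) := by
      intro w
      by_cases h0 : ∃ v, R v x w
      · obtain ⟨v, hv⟩ := h0
        rw [Finset.sum_eq_single v]
        · simp [hv, W.edge_part v x w hv, W.edge_wt v x w hv]
        · intro v' _ hne
          rw [if_neg fun h => hne (hin v' v x w h.2 hv), zero_smul]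
        · simp
      · have h3 : W.inn w x = 0 := by
          by_contra h3
          exact h0 (W.inn_edge w x h3)
        push Not at h0
        simp [h3, h0]
    simp only [α, β, Finset.sum_mul, h1, h2]
    exact Finset.sum_comm
  have hmul : ∀ i z, ∑ x, α i x * B x z = ∑ v, (if W.part v = i then
      (W.out v - q (W.out v) + q (W.inn v)) z else 0) • s (g v) := by
    intro i z
    have h1 : ∀ x, α i x * B x z =
        ((Pi.single x 1 : X → K) z - q (Pi.single x 1) z) • α i x +
          q (Pi.single x 1) z • β i x := by
      intro x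
      simp only [B, Matrix.of_apply, mul_add, mul_smul_comm, mul_one, key]
    simp only [h1, α, β, Finset.smul_sum, smul_smul, ← Finset.sum_add_distrib, ← add_smul]
    rw [Finset.sum_comm]
    refine Finset.sum_congr rfl fun v _ => ?_
    rw [← Finset.sum_smul]
    congr 1
    split_ifs with h
    · simp only [Pi.add_apply, Pi.sub_apply, ← matrix_q_apply q (W.out v),
        ← matrix_q_apply q (W.inn v), sub_mul, Finset.sum_add_distrib, Finset.sum_sub_distrib]
      congr 1
      · congr 1
        · rw [Finset.sum_eq_single z] <;> simp +contextual [eq_comm]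
        · exact Finset.sum_congr rfl fun x _ => mul_comm _ _
      · exact Finset.sum_congr rfl fun x _ => mul_comm _ _
    · simp
  have hreg : ∀ v, (∀ y, v ≠ W.star y) → W.out v - q (W.out v) + q (W.inn v) = 0 := by
    intro v hv
    rw [(W.reg v hv).1, (W.reg v hv).2]; simp
  have hstar : ∀ y z, ∑ x, α (W.part (W.star y)) x * B x z =
      (Pi.single y 1 : X → K) z • s (g (W.star y)) := by
    intro y z
    rw [hmul, Finset.sum_eq_single (W.star y)]
    · simp [W.star_out, W.star_inn]
    · intro v _ hne
      split_ifs with h
      · rw [hreg v, Pi.zero_apply, zero_smul]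
        rintro y' rfl
        exact hne (congrArg W.star (W.part_inj h))
      · simp
    · simp
  have hbase : ∀ z, ∑ x, α (W.part W.base) x * B x z = 0 := by
    intro z
    rw [hmul]
    refine Finset.sum_eq_zero fun v _ => ?_
    split_ifs with h
    · rw [hreg v, Pi.zero_apply, zero_smul]
      rintro y' rfl
      exact W.base_part y' h.symm
    · simp
  refine ⟨Matrix.of fun y x => s (g (W.star y))⁻¹ * α (W.part (W.star y)) x, B, ?_, ?_⟩
  · ext1 y z
    simp only [Matrix.mul_apply, Matrix.of_apply, mul_assoc, ← Finset.mul_sum, hstar,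
      mul_smul_comm, ← map_mul, inv_mul_cancel, map_one, Matrix.one_apply, Pi.single_apply]
    by_cases h : y = z
    · simp [h]
    · simp [h, Ne.symm h]
  · intro h
    have h0 : Matrix.vecMul (α (W.part W.base)) B = 0 := by
      funext z
      simpa [Matrix.vecMul, dotProduct] using hbase z
    have h1 : α (W.part W.base) = 0 := by
      rw [← Matrix.vecMul_one (α (W.part W.base)), ← h, ← Matrix.vecMul_vecMul, h0,
        Matrix.zero_vecMul]
    apply W.base_out
    funext x
    have h2 := congrArg (fun a : MonoidAlgebra K G => a.coeff (g W.base)) (congrFun h1 x)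
    simp only [α, s, MonoidAlgebra.of_apply, MonoidAlgebra.smul_single, smul_eq_mul, mul_one,
      MonoidAlgebra.coeff_sum, MonoidAlgebra.coeff_single, Finsupp.finsetSum_apply,
      Pi.zero_apply, MonoidAlgebra.coeff_zero, Finsupp.zero_apply] at h2
    rw [Finset.sum_eq_single W.base] at h2
    · simpa using h2
    · intro v _ hne
      rw [Finsupp.single_apply, if_neg fun e => hne (hg e)]
    · simp

end Vale.Agent.P194
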