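import Vale.Agent.P194.Defs

/-! Scaling a translation invariant code of rate at most one half off itself. -/

namespace Vale.Agent.P194

open Module

/-- Rado type selection lemma with two choices per index. -/
theorem split_rado {F W P : Type} [Field F] [AddCommGroup W] [Module F W]
    [FiniteDimensional F W] [DecidableEq P] (K : P → Bool → Submodule F W) (Rm : Finset P) :
    ∀ U : Submodule F W,
      (∀ T ⊆ Rm, finrank F ↥(U ⊓ ⨅ x ∈ Rm \ T, (K x true ⊓ K x false)) ≤ T.card) →
      ∃ s : P → Bool, ∀ w ∈ U, (∀ x ∈ Rm, w ∈ K x (s x)) → w = 0 := by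
  induction Rm using Finset.induction_on with
  | empty =>
    intro U h
    refine ⟨fun _ => true, fun w hw _ => ?_⟩
    have h0 := h ∅ (Finset.Subset.refl _)
    simp only [Finset.card_empty, Nat.le_zero, Submodule.finrank_eq_zero] at h0
    have : w ∈ U ⊓ ⨅ x ∈ (∅ : Finset P) \ ∅, (K x true ⊓ K x false) := by
      simp [hw]
    rw [h0] at this
    simpa using this
  | insert x Rm hx ih =>
    intro U h
    have key : ∃ b : Bool, ∀ T ⊆ Rm,
        finrank F ↥((U ⊓ K x b) ⊓ ⨅ y ∈ Rm \ T, (K y true ⊓ K y false)) ≤ T.card := by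
      by_contra hcon
      push Not at hcon
      obtain ⟨T0, hT0, h0⟩ := hcon true
      obtain ⟨T1, hT1, h1⟩ := hcon false
      set A := (U ⊓ K x true) ⊓ ⨅ y ∈ Rm \ T0, (K y true ⊓ K y false) with hA
      set B := (U ⊓ K x false) ⊓ ⨅ y ∈ Rm \ T1, (K y true ⊓ K y false) with hB
      have hsum := Submodule.finrank_sup_add_finrank_inf_eq A B
      have hinf : A ⊓ B ≤ U ⊓ ⨅ y ∈ insert x Rm \ (T0 ∩ T1), (K y true ⊓ K y false) := by
        intro w hw
        simp only [hA, hB, Submodule.mem_inf, Submodule.mem_iInf] at hw ⊢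
        refine ⟨hw.1.1.1, fun y hy => ?_⟩
        rw [Finset.mem_sdiff, Finset.mem_insert, Finset.mem_inter] at hy
        rcases hy with ⟨rfl | hy, hy2⟩
        · exact ⟨hw.1.1.2, hw.2.1.2⟩
        · by_cases hy0 : y ∈ T0
          · exact hw.2.2 y (Finset.mem_sdiff.2 ⟨hy, fun h' => hy2 ⟨hy0, h'⟩⟩)
          · exact hw.1.2 y (Finset.mem_sdiff.2 ⟨hy, hy0⟩)
      have hsup : A ⊔ B ≤
          U ⊓ ⨅ y ∈ insert x Rm \ insert x (T0 ∪ T1), (K y true ⊓ K y false) := by
        refine sup_le ?_ ?_
        · intro w hw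
          simp only [hA, Submodule.mem_inf, Submodule.mem_iInf] at hw ⊢
          refine ⟨hw.1.1, fun y hy => ?_⟩
          simp only [Finset.mem_sdiff, Finset.mem_insert, Finset.mem_union, not_or] at hy
          exact hw.2 y (Finset.mem_sdiff.2 ⟨hy.1.resolve_left hy.2.1, hy.2.2.1⟩)
        · intro w hw
          simp only [hB, Submodule.mem_inf, Submodule.mem_iInf] at hw ⊢
          refine ⟨hw.1.1, fun y hy => ?_⟩
          simp only [Finset.mem_sdiff, Finset.mem_insert, Finset.mem_union, not_or] at hy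
          exact hw.2 y (Finset.mem_sdiff.2 ⟨hy.1.resolve_left hy.2.1, hy.2.2.2⟩)
      have h2 := (Submodule.finrank_mono hinf).trans (h (T0 ∩ T1) (fun y hy =>
        Finset.mem_insert_of_mem (hT0 (Finset.mem_inter.1 hy).1)))
      have h3 := (Submodule.finrank_mono hsup).trans (h (insert x (T0 ∪ T1))
        (Finset.insert_subset_insert _ (Finset.union_subset hT0 hT1)))
      have h4 := Finset.card_insert_le x (T0 ∪ T1)
      have h5 := Finset.card_union_add_card_inter T0 T1
      omega
    obtain ⟨b, hb⟩ := key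
    obtain ⟨s, hs⟩ := ih (U ⊓ K x b) hb
    refine ⟨Function.update s x b, fun w hw hall => hs w ⟨hw, ?_⟩ fun y hy => ?_⟩
    · simpa using hall x (Finset.mem_insert_self _ _)
    · have hne : y ≠ x := fun e => hx (e ▸ hy)
      simpa [Function.update_of_ne hne] using hall y (Finset.mem_insert_of_mem hy)

/-- Existence of an information set. -/
theorem split_info {F P : Type} [Field F] [Fintype P] (n : ℕ) :
    ∀ C : Submodule F (P → F), finrank F C ≤ n →
      ∃ J : Finset P, J.card ≤ n ∧ ∀ u ∈ C, (∀ x ∈ J, u x = 0) → u = 0 := by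
  classical
  induction n with
  | zero =>
    intro C h
    refine ⟨∅, le_rfl, fun u hu _ => ?_⟩
    rw [Nat.le_zero, Submodule.finrank_eq_zero] at h
    rw [h] at hu
    simpa using hu
  | succ n ih =>
    intro C h
    by_cases hC : ∀ u ∈ C, u = 0
    · exact ⟨∅, by simp, fun u hu _ => hC u hu⟩
    push Not at hC
    obtain ⟨u, hu, hu0⟩ := hC
    obtain ⟨x, hx⟩ := Function.ne_iff.1 hu0
    have hlt : C ⊓ LinearMap.ker (LinearMap.proj (R := F) (φ := fun _ : P => F) x) < C := by
      refine lt_of_le_of_ne inf_le_left fun e => hx ?_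
      have : u ∈ C ⊓ LinearMap.ker (LinearMap.proj (R := F) (φ := fun _ : P => F) x) := by
        rw [e]; exact hu
      simpa using this.2
    obtain ⟨J, hJ, hJ2⟩ := ih _
      (Nat.lt_succ_iff.1 ((Submodule.finrank_lt_finrank_of_lt hlt).trans_le h))
    refine ⟨insert x J, (Finset.card_insert_le _ _).trans (by omega), fun v hv hz => ?_⟩
    refine hJ2 v ⟨hv, ?_⟩ fun y hy => hz y (Finset.mem_insert_of_mem hy)
    simpa using hz x (Finset.mem_insert_self _ _)

/-- Averaging over translates. -/
theorem split_avg {P : Type} [AddCommGroup P] [Fintype P] [DecidableEq P] (J T : Finset P)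
    (hJ : 2 * J.card ≤ Fintype.card P) :
    ∃ τ : P, 2 * (T.filter fun x => x - τ ∈ J).card ≤ T.card := by
  have hsum : ∑ τ : P, (T.filter fun x => x - τ ∈ J).card = T.card * J.card := by
    simp only [Finset.card_filter]
    rw [Finset.sum_comm, ← smul_eq_mul, ← Finset.sum_const]
    refine Finset.sum_congr rfl fun x _ => ?_
    rw [← Finset.card_filter]
    refine Finset.card_bij (fun τ _ => x - τ) (fun τ h => by simpa using h)
      (fun a _ b _ e => by simpa using e) (fun y hy => ⟨x - y, by simpa using hy, by simp⟩)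
  by_contra hcon
  push Not at hcon
  have h1 : ∑ _τ : P, T.card < ∑ τ : P, 2 * (T.filter fun x => x - τ ∈ J).card :=
    Finset.sum_lt_sum_of_nonempty ⟨0, Finset.mem_univ _⟩ fun τ _ => hcon τ
  rw [← Finset.mul_sum, hsum, Finset.sum_const, Finset.card_univ, smul_eq_mul] at h1
  nlinarith [Nat.mul_le_mul_right T.card hJ]

theorem exists_scaling {F P : Type} [Field F] [AddCommGroup P] [Fintype P]
    (hF : ∃ c : F, c ≠ 0 ∧ c ≠ 1) (C : Submodule F (P → F))
    (hC : ∀ u ∈ C, ∀ τ : P, (fun x => u (x + τ)) ∈ C)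
    (hdim : 2 * Module.finrank F C ≤ Nat.card P) :
    ∃ (lam : P → F) (q : (P → F) →ₗ[F] (P → F)), (∀ x, lam x ≠ 0) ∧
      (∀ u ∈ C, q u = u) ∧ (∀ u ∈ C, q (fun x => lam x * u x) = 0) := by
  classical
  obtain ⟨c, hc0, hc1⟩ := hF
  obtain ⟨J, hJ, hJ2⟩ := split_info (finrank F C) C le_rfl
  rw [Nat.card_eq_fintype_card] at hdim
  let l : Bool → F := fun b => if b then 1 else c
  have hl : ∀ b, l b ≠ 0 := by
    intro b; cases b <;> simp [l, hc0]
  let K : P → Bool → Submodule F ((P → F) × (P → F)) := fun x b =>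
    LinearMap.ker
      ((LinearMap.proj (R := F) (φ := fun _ : P => F) x).comp (LinearMap.fst F _ _) -
        l b • (LinearMap.proj (R := F) (φ := fun _ : P => F) x).comp (LinearMap.snd F _ _))
  have hK : ∀ x b (w : (P → F) × (P → F)), w ∈ K x b ↔ w.1 x = l b * w.2 x := by
    intro x b w
    simp [K, sub_eq_zero]
  obtain ⟨s, hs⟩ := split_rado K Finset.univ (C.prod C) (by
    intro T _
    obtain ⟨τ, hτ⟩ := split_avg J T (by omega)
    set S := T.filter fun x => x - τ ∈ J with hS
    set V := C.prod C ⊓ ⨅ x ∈ Finset.univ \ T, (K x true ⊓ K x false) with hV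
    let r : (P → F) →ₗ[F] (S → F) := LinearMap.funLeft F F (fun x : S => (x : P))
    let φ : V →ₗ[F] (S → F) × (S → F) := (r.prodMap r).comp V.subtype
    have hzero : ∀ u ∈ C, (∀ x, x ∉ T → u x = 0) → r u = 0 → u = 0 := by
      intro u hu h1 h2
      have h3 : (fun x => u (x + τ)) = 0 := by
        refine hJ2 _ (hC u hu τ) fun y hy => ?_
        by_cases hT : y + τ ∈ T
        · have hmem : y + τ ∈ S := by
            rw [hS, Finset.mem_filter]
            exact ⟨hT, by simpa using hy⟩
          exact congrFun h2 ⟨y + τ, hmem⟩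
        · exact h1 _ hT
      funext x
      simpa using congrFun h3 (x - τ)
    have hφ : Function.Injective φ := by
      rw [injective_iff_map_eq_zero]
      rintro ⟨w, hw⟩ h0
      have hw' := hw
      simp only [hV, Submodule.mem_inf, Submodule.mem_iInf, Submodule.mem_prod, hK] at hw'
      have hout : ∀ x, x ∉ T → w.1 x = 0 ∧ w.2 x = 0 := by
        intro x hx
        obtain ⟨e1, e2⟩ := hw'.2 x (by simpa using hx)
        simp only [l, if_true, one_mul, Bool.false_eq_true, if_false] at e1 e2
        have e3 : (1 - c) * w.2 x = 0 := by rw [sub_mul, one_mul, ← e2, e1, sub_self]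
        have e4 : w.2 x = 0 :=
          (mul_eq_zero.1 e3).resolve_left (sub_ne_zero.2 hc1.symm)
        exact ⟨e1.trans e4, e4⟩
      have h1 : r w.1 = 0 := congrArg Prod.fst h0
      have h2 : r w.2 = 0 := congrArg Prod.snd h0
      refine Subtype.ext (Prod.ext ?_ ?_)
      · exact hzero _ hw'.1.1 (fun x hx => (hout x hx).1) h1
      · exact hzero _ hw'.1.2 (fun x hx => (hout x hx).2) h2
    have := LinearMap.finrank_le_finrank_of_injective hφ
    simp only [Module.finrank_prod, Module.finrank_fintype_fun_eq_card, Fintype.card_coe] at this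
    omega)
  let m : (P → F) →ₗ[F] (P → F) := LinearMap.mulLeft F (fun x => l (s x))
  have hdis : Disjoint (C.map m) C := by
    rw [Submodule.disjoint_def]
    rintro _ ⟨b, hb, rfl⟩ ha
    have := hs (m b, b) ⟨ha, hb⟩ fun x _ => (hK x _ _).2 (by simp [m])
    exact congrArg Prod.fst this
  obtain ⟨D, hD, hcompl⟩ := hdis.exists_isCompl
  refine ⟨fun x => l (s x), Submodule.projection C D hcompl.symm,
    fun x => hl _, fun u hu => ?_, fun u hu => ?_⟩
  · exact Submodule.projection_apply_left hcompl.symm ⟨u, hu⟩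
  · have hm : (fun x => l (s x) * u x) ∈ D := hD ⟨u, hu, rfl⟩
    exact Submodule.projection_apply_right hcompl.symm ⟨_, hm⟩

theorem lineCode_translate {F B : Type} [Field F] [AddCommGroup B] [Module F B] :
    ∀ u ∈ lineCode F B, ∀ τ : F × B, (fun x => u (x + τ)) ∈ lineCode F B := by
  intro u hu τ
  unfold lineCode at hu ⊢
  induction hu using Submodule.span_induction with
  | mem u h =>
    obtain ⟨p, rfl⟩ := h
    refine Submodule.subset_span ⟨(p.1 + τ.1 • p.2 - τ.2, p.2), ?_⟩
    funext x
    have : (x.2 = p.1 + τ.1 • p.2 - τ.2 + x.1 • p.2) ↔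
        ((x + τ).2 = p.1 + (x + τ).1 • p.2) := by
      simp only [Prod.snd_add, Prod.fst_add, add_smul]
      constructor
      · intro h; rw [h]; abel
      · intro h; rw [← sub_eq_zero] at h ⊢; rw [← h]; abel
    simp only [lineInd]
    by_cases h : (x + τ).2 = p.1 + (x + τ).1 • p.2
    · rw [if_pos h, if_pos (this.2 h)]
    · rw [if_neg h, if_neg fun h' => h (this.1 h')]
  | zero => exact Submodule.zero_mem _
  | add u v _ _ h1 h2 => exact Submodule.add_mem _ h1 h2
  | smul a u _ h => exact Submodule.smul_mem _ a h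

end Vale.Agent.P194
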