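import Vale.Agent.P194.Rank
import Vale.Agent.P194.Split
import Vale.Agent.P194.Graph
import Vale.Agent.P194.Matrix
import Vale.Agent.P194.Corner
import Vale.Agent.P194.Embed

/-! Assembly of the counterexample. -/

namespace Vale.Agent.P194

theorem stable_counterexample : ∃ (K : Type) (_ : Field K) (_ : Fintype K)
    (V X : Type) (_ : Fintype V) (_ : Fintype X) (_ : DecidableEq X) (R : V → X → V → Prop),
    (∃ c : K, c ≠ 0 ∧ c ≠ 1) ∧ SmallCanc R ∧
    ∃ A B : Matrix X X (MonoidAlgebra K (PresentedGroup (rels R))), A * B = 1 ∧ B * A ≠ 1 := by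
  classical
  obtain ⟨t, ht, hrank⟩ := rank_bound 10
  have : Fintype (GaloisField 2 t) := Fintype.ofFinite _
  have : DecidableEq (GaloisField 2 t × BB (GaloisField 2 t)) := Classical.decEq _
  have hc : ∃ c : GaloisField 2 t, c ≠ 0 ∧ c ≠ 1 := by
    by_contra hcon
    push Not at hcon
    have h1 : (Finset.univ : Finset (GaloisField 2 t)) ⊆ {0, 1} := by
      intro c _
      by_cases h0 : c = 0
      · simp [h0]
      · simp [hcon c h0]
    have h2 := Finset.card_le_card h1
    have h3 : Nat.card (GaloisField 2 t) = 2 ^ t := GaloisField.card 2 t (by omega)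
    have h4 : ({0, 1} : Finset (GaloisField 2 t)).card ≤ 2 := Finset.card_le_two
    have h5 : 2 ^ 2 ≤ 2 ^ t := Nat.pow_le_pow_right (by norm_num) ht
    rw [Finset.card_univ, ← Nat.card_eq_fintype_card] at h2
    omega
  have hdim := hrank (BB (GaloisField 2 t)) (by simp [BB, Module.finrank_prod])
  obtain ⟨lam, q, hlam, hq1, hq2⟩ :=
    exists_scaling hc (lineCode (GaloisField 2 t) (BB (GaloisField 2 t))) lineCode_translate hdim
  obtain ⟨V, I, hV, R, hR, ⟨W⟩⟩ := exists_graph lam hlam q hq1 hq2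
  refine ⟨GaloisField 2 t, inferInstance, inferInstance, V, _, hV, inferInstance, inferInstance,
    R, hc, hR, ?_⟩
  refine matrix_not_df R hR.out_unique hR.in_unique q W _
    (fun x => PresentedGroup.of (Sum.inl x)) (embed R hR) ?_
  intro v x w hvw
  have : (PresentedGroup.mk (rels R)) (FreeGroup.of (Sum.inr v) * FreeGroup.of (Sum.inl x) *
      (FreeGroup.of (Sum.inr w))⁻¹) = 1 :=
    PresentedGroup.one_of_mem ⟨v, x, w, hvw, rfl⟩
  simp only [map_mul, map_inv] at this
  exact mul_inv_eq_one.mp this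

theorem main : ∃ (K : Type) (_ : Field K) (G : Type) (_ : Group G),
    ∃ a b : MonoidAlgebra K G, a * b = 1 ∧ b * a ≠ 1 := by
  obtain ⟨K, _, _, V, X, _, _, _, R, hc, _, A, B, h, h'⟩ := stable_counterexample
  obtain ⟨H, _, _, a, b, hab⟩ := corner hc A B h h'
  exact ⟨K, inferInstance, _, inferInstance, a, b, hab⟩

end Vale.Agent.P194
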