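import Mathlib

/-! Shared definitions for the counterexample to direct finiteness of group algebras. -/

namespace Vale.Agent.P194

/-- Formal inverse of a signed letter. -/
def linv {X : Type} (l : X × Bool) : X × Bool := (l.1, !l.2)

/-- Signed version of a labelled directed graph `R v x w` (edge from `v` to `w` with label `x`):
the letter `(x, true)` is read along the edge, `(x, false)` against it. -/
def SR {V X : Type} (R : V → X → V → Prop) (v : V) (l : X × Bool) (w : V) : Prop :=
  (l.2 = true ∧ R v l.1 w) ∨ (l.2 = false ∧ R w l.1 v)

/-- The triangle relators `v * x * w⁻¹`, one for each edge. -/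
def rels {V X : Type} (R : V → X → V → Prop) : Set (FreeGroup (X ⊕ V)) :=
  {r | ∃ v x w, R v x w ∧
    r = FreeGroup.of (Sum.inr v) * FreeGroup.of (Sum.inl x) * (FreeGroup.of (Sum.inr w))⁻¹}

/-- Folded graph, two vertices share at most one letter, girth at least seven. -/
structure SmallCanc {V X : Type} (R : V → X → V → Prop) : Prop where
  out_unique : ∀ v x w w', R v x w → R v x w' → w = w'
  in_unique : ∀ v v' x w, R v x w → R v' x w → v = v'
  piece : ∀ a a' l l' b b' c c', l ≠ l' → SR R a l b → SR R a l' b' → SR R a' l c →
    SR R a' l' c' → a = a'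
  girth : ∀ (p : ℕ) (a : ℕ → V) (l : ℕ → X × Bool), 0 < p → p < 7 →
    (∀ i, SR R (a i) (l i) (a (i + 1))) → (∀ i, l (i + 1) ≠ linv (l i)) →
    (∀ i, a (i + p) = a i) → False

open Classical in
/-- Indicator function of the line `{(s, a + s • η)}` in `F × B`. -/
noncomputable def lineInd {F B : Type} [Field F] [AddCommGroup B] [Module F B] (a η : B) :
    F × B → F :=
  fun x => if x.2 = a + x.1 • η then 1 else 0

/-- The code spanned by the indicator functions of all non-vertical lines. -/
noncomputable def lineCode (F B : Type) [Field F] [AddCommGroup B] [Module F B] :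
    Submodule F (F × B → F) :=
  Submodule.span F (Set.range fun p : B × B => lineInd (F := F) p.1 p.2)

/-- Weighted graph data feeding the matrix argument. `q` is a linear map on `X → K`. -/
structure Weighted {K V X I : Type} [Field K] [DecidableEq X] (R : V → X → V → Prop)
    (q : (X → K) →ₗ[K] (X → K)) where
  out : V → X → K
  inn : V → X → K
  part : V → I
  star : X → V
  base : V
  out_edge : ∀ v x, out v x ≠ 0 → ∃ w, R v x w
  inn_edge : ∀ w x, inn w x ≠ 0 → ∃ v, R v x w
  edge_wt : ∀ v x w, R v x w → out v x = inn w x
  edge_part : ∀ v x w, R v x w → part v = part w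
  star_out : ∀ y, out (star y) = Pi.single y 1
  star_inn : ∀ y, inn (star y) = Pi.single y 1
  reg : ∀ v, (∀ y, v ≠ star y) → q (out v) = out v ∧ q (inn v) = 0
  part_inj : Function.Injective fun y => part (star y)
  base_part : ∀ y, part base ≠ part (star y)
  base_out : out base ≠ 0

end Vale.Agent.P194
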