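import Vale.Agent.P194.Hypermap

/-! The Euler inequality for exact combinatorial maps. -/

namespace Vale.Agent.P194

open Equiv

/-- Functions invariant under a permutation. -/
def invFun' {D : Type} (σ : Perm D) : Submodule ℚ (D → ℚ) where
  carrier := {m | ∀ s, m (σ s) = m s}
  add_mem' := by
    intro a b ha hb s
    simp only [Pi.add_apply, ha s, hb s]
  zero_mem' := by intro s; rfl
  smul_mem' := by
    intro c a ha s
    simp only [Pi.smul_apply, ha s]

theorem mem_invFun' {D : Type} {σ : Perm D} {m : D → ℚ} :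
    m ∈ invFun' σ ↔ ∀ s, m (σ s) = m s := Iff.rfl

theorem invFun'_pow {D : Type} {σ : Perm D} {m : D → ℚ} (hm : m ∈ invFun' σ) (n : ℕ) (s : D) :
    m ((σ ^ n) s) = m s := by
  induction n with
  | zero => rfl
  | succ n ih => rw [pow_succ', Perm.mul_apply, hm, ih]

theorem invFun'_sameCycle {D : Type} [Finite D] {σ : Perm D} {m : D → ℚ} (hm : m ∈ invFun' σ)
    {s u : D} (h : σ.SameCycle s u) : m s = m u := by
  obtain ⟨n, _, rfl⟩ := h.exists_pow_eq'
  rw [invFun'_pow hm]

open Classical in
/-- The number of cycles is bounded by any weight giving every cycle total weight at least one. -/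
theorem finrank_invFun'_le {D : Type} [Fintype D] (σ : Perm D) (w : D → ℚ)
    (hw : ∀ s, 1 ≤ ∑ u ∈ Finset.univ.filter (fun u => σ.SameCycle s u), w u) :
    (Module.finrank ℚ (invFun' σ) : ℚ) ≤ ∑ u, w u := by
  let Q := Quotient (Perm.SameCycle.setoid σ)
  let f : invFun' σ →ₗ[ℚ] (Q → ℚ) :=
    { toFun := fun m c => m.1 c.out
      map_add' := fun _ _ => rfl
      map_smul' := fun _ _ => rfl }
  have hf : Function.Injective f := by
    intro m m' h
    ext s
    have h1 : σ.SameCycle (Quotient.mk (Perm.SameCycle.setoid σ) s).out s :=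
      Quotient.mk_out (s := Perm.SameCycle.setoid σ) s
    rw [← invFun'_sameCycle m.2 h1, ← invFun'_sameCycle m'.2 h1]
    exact congrFun h _
  have h1 : Module.finrank ℚ (invFun' σ) ≤ Fintype.card Q := by
    simpa using LinearMap.finrank_le_finrank_of_injective hf
  have h2 : (Fintype.card Q : ℚ) ≤ ∑ u, w u := by
    rw [← Finset.sum_fiberwise Finset.univ (fun u => (Quotient.mk (Perm.SameCycle.setoid σ) u : Q)) w]
    rw [← Finset.card_univ, Finset.card_eq_sum_ones, Nat.cast_sum]
    refine Finset.sum_le_sum fun c _ => ?_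
    have h3 := hw c.out
    have h4 : Finset.univ.filter (fun u => σ.SameCycle c.out u) =
        Finset.univ.filter (fun u => (Quotient.mk (Perm.SameCycle.setoid σ) u : Q) = c) := by
      ext u
      simp only [Finset.mem_filter, Finset.mem_univ, true_and]
      constructor
      · intro h
        rw [← Quotient.out_eq c]
        exact Quotient.sound h.symm
      · intro h
        rw [← h]
        exact Quotient.mk_out (s := Perm.SameCycle.setoid σ) u
    rw [h4] at h3
    simpa using h3
  exact le_trans (by exact_mod_cast h1) h2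

open Classical in
theorem card_cycle_ge {D : Type} [Fintype D] (σ : Perm D) (s : D) (j : ℕ)
    (h : ∀ i, 0 < i → i < j → (σ ^ i) s ≠ s) :
    j ≤ (Finset.univ.filter (fun u => σ.SameCycle s u)).card := by
  have : ((Finset.range j).image fun i => (σ ^ i) s).card = j := by
    rw [Finset.card_image_of_injOn, Finset.card_range]
    intro i hi i' hi' e
    simp only [Finset.coe_range, Set.mem_Iio] at hi hi'
    by_contra hne
    rcases lt_or_gt_of_ne hne with hlt | hlt
    · apply h (i' - i) (by omega) (by omega)
      apply (σ ^ i).injective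
      rw [← Perm.mul_apply, ← pow_add, show i + (i' - i) = i' by omega]
      exact e.symm
    · apply h (i - i') (by omega) (by omega)
      apply (σ ^ i').injective
      rw [← Perm.mul_apply, ← pow_add, show i' + (i - i') = i by omega]
      exact e
  rw [← this]
  apply Finset.card_le_card
  intro u hu
  obtain ⟨i, _, rfl⟩ := Finset.mem_image.mp hu
  simp only [Finset.mem_filter, Finset.mem_univ, true_and]
  exact ⟨i, by simp⟩

theorem finrank_invFun'_le_of_long {D : Type} [Fintype D] (σ : Perm D) (z : D) (j : ℕ)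
    (hj : 0 < j) (h : ∀ s, ¬ σ.SameCycle s z → ∀ i, 0 < i → i < j → (σ ^ i) s ≠ s) :
    (Module.finrank ℚ (invFun' σ) : ℚ) ≤ 1 + ((Fintype.card D : ℚ) - 1) / j := by
  classical
  have hj' : (0 : ℚ) < j := by exact_mod_cast hj
  have := finrank_invFun'_le σ (fun u => if u = z then 1 else 1 / (j : ℚ)) (by
    intro s
    by_cases hs : σ.SameCycle s z
    · have hz : z ∈ Finset.univ.filter (fun u => σ.SameCycle s u) := by simpa using hs
      have := Finset.single_le_sum (f := fun u => if u = z then (1 : ℚ) else 1 / (j : ℚ))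
        (fun u _ => by split_ifs <;> positivity) hz
      simpa using this
    · have h1 := card_cycle_ge σ s j (h s hs)
      have h2 : ∑ u ∈ Finset.univ.filter (fun u => σ.SameCycle s u),
          (if u = z then (1 : ℚ) else 1 / (j : ℚ)) =
          ∑ u ∈ Finset.univ.filter (fun u => σ.SameCycle s u), 1 / (j : ℚ) := by
        refine Finset.sum_congr rfl fun u hu => ?_
        have : u ≠ z := by
          rintro rfl
          exact hs (by simpa using hu)
        simp [this]
      rw [h2, Finset.sum_const, nsmul_eq_mul, mul_one_div, le_div_iff₀ hj', one_mul]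
      exact_mod_cast h1)
  refine this.trans (le_of_eq ?_)
  rw [← Finset.add_sum_erase _ _ (Finset.mem_univ z)]
  have h2 : ∑ u ∈ Finset.univ.erase z, (if u = z then (1 : ℚ) else 1 / (j : ℚ)) =
      ∑ u ∈ Finset.univ.erase z, 1 / (j : ℚ) := by
    refine Finset.sum_congr rfl fun u hu => ?_
    simp [(Finset.mem_erase.mp hu).1]
  have h3 : 1 ≤ Fintype.card D := Fintype.card_pos_iff.mpr ⟨z⟩
  rw [h2, Finset.sum_const, Finset.card_erase_of_mem (Finset.mem_univ z), Finset.card_univ,
    nsmul_eq_mul, Nat.cast_sub h3]
  simp [div_eq_mul_inv]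

/-- Euler inequality: `V + F + (number of α-cycles) ≥ (number of darts) + 2`. -/
theorem Exact.euler {D : Type} [Fintype D] [Nonempty D] {φ α : Perm D} (hα : ∀ s, α (α s) = s)
    (h : Exact φ α) :
    Fintype.card D + 2 ≤ Module.finrank ℚ (invFun' φ) + Module.finrank ℚ (invFun' (φ * α)) +
      Module.finrank ℚ (invFun' α) := by
  classical
  let Φ : (D → ℚ) →ₗ[ℚ] (D → ℚ) :=
    { toFun := fun k s => k (φ (α s)) + k (φ s) - (k (α s) + k s)
      map_add' := by intro a b; ext s; simp only [Pi.add_apply]; ring
      map_smul' := by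
        intro c a; ext s; simp only [Pi.smul_apply, smul_eq_mul, RingHom.id_apply]; ring }
  have hone : ∀ σ : Perm D, (fun _ => (1 : ℚ)) ∈ invFun' σ := fun σ s => rfl
  have hr : LinearMap.range Φ < invFun' α := by
    refine lt_of_le_of_ne ?_ ?_
    · rintro _ ⟨k, rfl⟩ s
      simp only [Φ, LinearMap.coe_mk, AddHom.coe_mk, hα]
      ring
    · intro e
      have h1 := hone α
      rw [← e] at h1
      obtain ⟨k, hk⟩ := h1
      have h2 : ∑ s, Φ k s = 0 := by
        simp only [Φ, LinearMap.coe_mk, AddHom.coe_mk, Finset.sum_sub_distrib,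
          Finset.sum_add_distrib]
        rw [Equiv.sum_comp α (fun s => k (φ s)), Equiv.sum_comp φ k, Equiv.sum_comp α k]
        ring
      rw [hk] at h2
      simp at h2
  have h1 := Submodule.finrank_lt_finrank_of_lt hr
  have h2 := LinearMap.finrank_range_add_finrank_ker Φ
  have h3 : LinearMap.ker Φ ≤ invFun' φ ⊔ invFun' (φ * α) := by
    intro k hk
    obtain ⟨m, hm, hh⟩ := h k (by
      intro s
      have := congrFun (LinearMap.mem_ker.mp hk) s
      simp only [Φ, LinearMap.coe_mk, AddHom.coe_mk, Pi.zero_apply] at this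
      linarith)
    refine Submodule.mem_sup.mpr ⟨m, hm, k - m, ?_, by simp⟩
    intro s
    have := hh (α s)
    rw [hα] at this
    simp only [Perm.mul_apply, Pi.sub_apply]
    linarith
  have h4 := Submodule.finrank_mono h3
  have h5 := Submodule.finrank_sup_add_finrank_inf_eq (invFun' φ) (invFun' (φ * α))
  have h6 : 0 < Module.finrank ℚ (invFun' φ ⊓ invFun' (φ * α) : Submodule ℚ (D → ℚ)) := by
    rw [Module.finrank_pos_iff_exists_ne_zero]
    refine ⟨⟨fun _ => 1, hone _, hone _⟩, ?_⟩
    intro e
    have := congrFun (congrArg Subtype.val e) (Classical.arbitrary D)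
    simp at this
  simp only [Module.finrank_fintype_fun_eq_card] at h2
  omega

/-- A map with one marked dart, vertices of degree at least three and faces of length at least
seven away from the marked dart is trivial. -/
theorem Exact.card_le_one {D : Type} [Fintype D] {φ α : Perm D} (hα : ∀ s, α (α s) = s)
    (h : Exact φ α) (z : D) (hz : ∀ s, α s = s → s = z)
    (hV : ∀ s, ¬ (φ * α).SameCycle s z → ∀ i, 0 < i → i < 3 → ((φ * α) ^ i) s ≠ s)
    (hF : ∀ s, ¬ φ.SameCycle s z → ∀ i, 0 < i → i < 7 → (φ ^ i) s ≠ s) :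
    Fintype.card D ≤ 1 := by
  have : Nonempty D := ⟨z⟩
  have h1 := h.euler hα
  have h2 := finrank_invFun'_le_of_long φ z 7 (by norm_num) hF
  have h3 := finrank_invFun'_le_of_long (φ * α) z 3 (by norm_num) hV
  have h4 := finrank_invFun'_le_of_long α z 2 (by norm_num) (by
    intro s hs i h0 h2
    have : i = 1 := by omega
    rw [this, pow_one]
    intro e
    apply hs
    rw [hz s e])
  have h5 : ((Fintype.card D : ℚ) + 2) ≤ (Module.finrank ℚ (invFun' φ) : ℚ) +
      (Module.finrank ℚ (invFun' (φ * α)) : ℚ) + (Module.finrank ℚ (invFun' α) : ℚ) := by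
    exact_mod_cast h1
  have h6 : (Fintype.card D : ℚ) ≤ 1 := by
    push_cast at h2 h3 h4
    linarith
  exact_mod_cast h6

end Vale.Agent.P194
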