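import Vale.Agent.P194.Defs
import Vale.Agent.P194.Euler

/-! Van Kampen type diagrams over a folded labelled graph, and their reduction. -/

namespace Vale.Agent.P194

open Equiv

theorem linv_linv {Y : Type} (l : Y × Bool) : linv (linv l) = l := by
  simp [linv]

theorem linv_ne {Y : Type} (l : Y × Bool) : linv l ≠ l := by
  obtain ⟨y, b⟩ := l
  cases b <;> simp [linv]

/-- A folded graph with symmetric signed edges. -/
structure Folded {W Y : Type} (S : W → Y × Bool → W → Prop) : Prop where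
  symm : ∀ a l b, S a l b → S b (linv l) a
  det : ∀ a l b b', S a l b → S a l b' → b = b'

/-- A diagram: darts, faces `φ`, edge involution `α` whose fixed points are markers, labels and
lifts of the darts to the graph `S`. -/
structure Diagram {W Y : Type} (S : W → Y × Bool → W → Prop) (D : Type) where
  φ : Perm D
  α : Perm D
  lab : D → Y × Bool
  a : D → W
  invol : ∀ s, α (α s) = s
  lab_α : ∀ s, α s ≠ s → lab (α s) = linv (lab s)
  step : ∀ s, α s ≠ s → S (a s) (lab s) (a (φ s))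
  exact : Exact φ α

variable {W Y D : Type} {S : W → Y × Bool → W → Prop}

namespace Diagram

theorem detach_aux [DecidableEq D] (Δ : Diagram S D) (s : D) (h : Δ.a (Δ.φ s) = Δ.a (Δ.α s))
    (u : D) : Δ.a ((Δ.φ * swap (Δ.φ⁻¹ (Δ.α s)) s) u) = Δ.a (Δ.φ u) := by
  by_cases h1 : u = s
  · rw [h1]; simp [h]
  by_cases h2 : u = Δ.φ⁻¹ (Δ.α s)
  · rw [h2]; simp [h]
  · rw [Perm.mul_apply, swap_apply_of_ne_of_ne h2 h1]

/-- Detach the end of the dart `s` from its vertex. -/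
def detach [DecidableEq D] (Δ : Diagram S D) (s : D) (h : Δ.a (Δ.φ s) = Δ.a (Δ.α s)) :
    Diagram S D where
  φ := Δ.φ * swap (Δ.φ⁻¹ (Δ.α s)) s
  α := Δ.α
  lab := Δ.lab
  a := Δ.a
  invol := Δ.invol
  lab_α := Δ.lab_α
  step := fun u hu => by rw [Δ.detach_aux s h]; exact Δ.step u hu
  exact := Δ.exact.detach Δ.invol s

/-- Restrict to an invariant set of darts. -/
def restrict (Δ : Diagram S D) (p : D → Prop)
    (h1 : ∀ x, p (Δ.φ x) ↔ p x) (h2 : ∀ x, p (Δ.α x) ↔ p x) : Diagram S {x // p x} where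
  φ := Δ.φ.subtypePerm h1
  α := Δ.α.subtypePerm h2
  lab := fun x => Δ.lab x
  a := fun x => Δ.a x
  invol := fun s => Subtype.ext (Δ.invol s)
  lab_α := fun s hs => Δ.lab_α s fun e => hs (Subtype.ext e)
  step := fun s hs => Δ.step s fun e => hs (Subtype.ext e)
  exact := Δ.exact.restrict h1 h2

/-- Remove an edge both of whose sides lift to the same edge (or a closed marker). -/
theorem remove (Δ : Diagram S D) (s : D) (h : Δ.a (Δ.φ s) = Δ.a (Δ.α s))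
    (h' : Δ.a (Δ.φ (Δ.α s)) = Δ.a s) :
    ∃ Δ' : Diagram S {u // u ≠ s ∧ u ≠ Δ.α s}, (∀ u, (Δ'.α u : D) = Δ.α u) ∧
      (∀ u, Δ'.a u = Δ.a u) ∧ (∀ u, Δ'.a (Δ'.φ u) = Δ.a (Δ.φ u)) ∧
      (∀ u, Δ'.lab u = Δ.lab u) := by
  classical
  let Δ1 := Δ.detach s h
  have e1 : ∀ u, Δ1.a (Δ1.φ u) = Δ.a (Δ.φ u) := Δ.detach_aux s h
  have p1 : Δ1.φ s = Δ.α s := by simp [Δ1, detach]
  have h1 : Δ1.a (Δ1.φ (Δ.α s)) = Δ1.a (Δ1.α (Δ.α s)) := by
    rw [e1, h']
    change _ = Δ.a (Δ.α (Δ.α s))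
    rw [Δ.invol]
  let Δ2 := Δ1.detach (Δ.α s) h1
  have e2 : ∀ u, Δ2.a (Δ2.φ u) = Δ.a (Δ.φ u) := fun u =>
    (Δ1.detach_aux (Δ.α s) h1 u).trans (e1 u)
  have p2 : Δ2.φ (Δ.α s) = s := by
    change (Δ1.φ * swap (Δ1.φ⁻¹ (Δ.α (Δ.α s))) (Δ.α s)) (Δ.α s) = s
    simp [Δ.invol]
  have p3 : Δ2.φ s = Δ.α s := by
    by_cases hs : Δ.α s = s
    · rw [hs] at p2 ⊢; exact p2
    · change (Δ1.φ * swap (Δ1.φ⁻¹ (Δ.α (Δ.α s))) (Δ.α s)) s = Δ.α s
      have : s ≠ Δ1.φ⁻¹ (Δ.α (Δ.α s)) := by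
        intro e
        rw [Δ.invol, Perm.eq_inv_iff_eq, p1] at e
        exact hs e
      rw [Perm.mul_apply, swap_apply_of_ne_of_ne this (Ne.symm hs), p1]
  have q1 : ∀ x, (Δ2.φ x ≠ s ∧ Δ2.φ x ≠ Δ.α s) ↔ (x ≠ s ∧ x ≠ Δ.α s) := by
    intro x
    have a1 : Δ2.φ x = s ↔ x = Δ.α s := by
      constructor
      · intro e; exact Δ2.φ.injective (e.trans p2.symm)
      · intro e; rw [e]; exact p2
    have a2 : Δ2.φ x = Δ.α s ↔ x = s := by
      constructor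
      · intro e; exact Δ2.φ.injective (e.trans p3.symm)
      · intro e; rw [e]; exact p3
    simp only [ne_eq, a1, a2]
    tauto
  have q2 : ∀ x, (Δ.α x ≠ s ∧ Δ.α x ≠ Δ.α s) ↔ (x ≠ s ∧ x ≠ Δ.α s) := by
    intro x
    have a1 : Δ.α x = s ↔ x = Δ.α s := by
      constructor
      · intro e; rw [← e]; exact (Δ.invol x).symm
      · intro e; rw [e]; exact Δ.invol s
    simp only [ne_eq, a1, Δ.α.injective.eq_iff]
    tauto
  exact ⟨Δ2.restrict (fun u => u ≠ s ∧ u ≠ Δ.α s) q1 q2, fun _ => rfl,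
    fun _ => rfl, fun u => e2 u, fun _ => rfl⟩

theorem fold_aux [DecidableEq D] {α : Perm D} (t s' : D)
    (ht : α t ≠ t) (hs' : α s' ≠ s') (u : D) :
    (swap t s' * α * swap t s') u = u ↔ α u = u := by
  have h1 : (swap t s' * α * swap t s') u = u ↔ α (swap t s' u) = swap t s' u := by
    simp only [Perm.mul_apply]
    constructor
    · intro e
      have := congrArg (swap t s') e
      rwa [swap_apply_self] at this
    · intro e
      rw [e, swap_apply_self]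
  rw [h1]
  by_cases h2 : u = t
  · rw [h2]; simp [ht, hs']
  by_cases h3 : u = s'
  · rw [h3]; simp [ht, hs']
  · rw [swap_apply_of_ne_of_ne h2 h3]

/-- Fold a backtracking pair of consecutive darts. -/
def fold [DecidableEq D] (Δ : Diagram S D) (s : D) (hs : Δ.α s ≠ s) (ht : Δ.α (Δ.φ s) ≠ Δ.φ s)
    (hl : Δ.lab (Δ.φ s) = linv (Δ.lab s)) (hne : Δ.α s ≠ Δ.φ s) : Diagram S D where
  φ := Δ.φ
  α := swap (Δ.φ s) (Δ.α s) * Δ.α * swap (Δ.φ s) (Δ.α s)
  lab := Δ.lab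
  a := Δ.a
  invol := fun u => by simp [Δ.invol]
  lab_α := fun u hu => by
    have h1 : ∀ x, Δ.lab (swap (Δ.φ s) (Δ.α s) x) = Δ.lab x := by
      intro x
      by_cases h2 : x = Δ.φ s
      · rw [h2, swap_apply_left, Δ.lab_α s hs, hl]
      by_cases h3 : x = Δ.α s
      · rw [h3, swap_apply_right, Δ.lab_α s hs, hl]
      · rw [swap_apply_of_ne_of_ne h2 h3]
    have h2 : Δ.α (swap (Δ.φ s) (Δ.α s) u) ≠ swap (Δ.φ s) (Δ.α s) u := by
      intro e
      apply hu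
      simp only [Perm.mul_apply]
      rw [e, swap_apply_self]
    simp only [Perm.mul_apply]
    rw [h1, Δ.lab_α _ h2, h1]
  step := fun u hu => by
    have hs' : Δ.α (Δ.α s) ≠ Δ.α s := by rw [Δ.invol]; exact hs.symm
    exact Δ.step u fun e => hu ((fold_aux _ _ ht hs' u).mpr e)
  exact := Δ.exact.fold Δ.invol s hs ht
    (fun e => linv_ne (Δ.lab s) (by rw [← hl, e])) hne

/-- No edge with both sides lifting to the same edge, and no backtracking. -/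
def Reduced (Δ : Diagram S D) : Prop :=
  (∀ s, Δ.α s ≠ s → Δ.a (Δ.φ s) ≠ Δ.a (Δ.α s)) ∧
    ∀ s, Δ.α s ≠ s → Δ.α (Δ.φ s) ≠ Δ.φ s → Δ.lab (Δ.φ s) ≠ linv (Δ.lab s)

end Diagram

/-- `Δ` has exactly one marker `z`, whose defect is `(A, B)`. -/
def Marked (Δ : Diagram S D) (z : D) (A B : W) : Prop :=
  (∀ s, Δ.α s = s ↔ s = z) ∧ Δ.a z = A ∧ Δ.a (Δ.φ z) = B

/-- There is a finite diagram with exactly one marker with defect `(A, B)`. -/
def Has1 (S : W → Y × Bool → W → Prop) (A B : W) : Prop :=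
  ∃ (D : Type) (_ : Fintype D) (Δ : Diagram S D) (z : D), Marked Δ z A B

theorem Marked.remove_edge [Fintype D] (hS : Folded S) {Δ : Diagram S D} {z : D} {A B : W}
    (hz : Marked Δ z A B) (s : D) (hs : Δ.α s ≠ s) (h : Δ.a (Δ.φ s) = Δ.a (Δ.α s)) :
    ∃ (D' : Type) (_ : Fintype D') (Δ' : Diagram S D') (z' : D'), Marked Δ' z' A B ∧
      Fintype.card D' < Fintype.card D := by
  classical
  have hs' : Δ.α (Δ.α s) ≠ Δ.α s := by rw [Δ.invol]; exact hs.symm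
  have h' : Δ.a (Δ.φ (Δ.α s)) = Δ.a s := by
    have h1 := hS.symm _ _ _ (Δ.step s hs)
    have h2 := Δ.step _ hs'
    rw [Δ.lab_α s hs, ← h] at h2
    exact hS.det _ _ _ _ h2 h1
  obtain ⟨Δ', hα, ha, hφ, -⟩ := Δ.remove s h h'
  have hzz := (hz.1 z).mpr rfl
  refine ⟨_, inferInstance, Δ', ⟨z, fun e => hs (e ▸ hzz), fun e => hs' (e ▸ hzz)⟩,
    ⟨fun u => ?_, (ha _).trans hz.2.1, (hφ _).trans hz.2.2⟩, ?_⟩
  · rw [Subtype.ext_iff, hα, hz.1, Subtype.ext_iff]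
  · exact Fintype.card_subtype_lt (x := s) (by simp)

theorem Has1.reduce (hS : Folded S) {A B : W} (h : Has1 S A B) :
    ∃ (D : Type) (_ : Fintype D) (Δ : Diagram S D) (z : D), Marked Δ z A B ∧ Δ.Reduced := by
  classical
  obtain ⟨D, _, Δ, z, hz⟩ := h
  induction hn : Fintype.card D using Nat.strong_induction_on generalizing D with
  | _ n ih =>
  by_cases h1 : ∃ s, Δ.α s ≠ s ∧ Δ.a (Δ.φ s) = Δ.a (Δ.α s)
  · obtain ⟨s, hs, h⟩ := h1
    obtain ⟨D', _, Δ', z', hz', hlt⟩ := hz.remove_edge hS s hs h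
    exact ih _ (hn ▸ hlt) D' _ Δ' z' hz' rfl
  by_cases h2 : ∃ s, Δ.α s ≠ s ∧ Δ.α (Δ.φ s) ≠ Δ.φ s ∧ Δ.lab (Δ.φ s) = linv (Δ.lab s)
  · obtain ⟨s, hs, ht, hl⟩ := h2
    have hne : Δ.α s ≠ Δ.φ s := fun e => h1 ⟨s, hs, by rw [e]⟩
    have hs' : Δ.α (Δ.α s) ≠ Δ.α s := by rw [Δ.invol]; exact hs.symm
    have hst : Δ.φ s ≠ s := fun e => linv_ne (Δ.lab s) (by rw [← hl, e])
    have hz' : Marked (Δ.fold s hs ht hl hne) z A B :=
      ⟨fun u => (Diagram.fold_aux _ _ ht hs' u).trans (hz.1 u), hz.2.1, hz.2.2⟩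
    have e : (Δ.fold s hs ht hl hne).α s = Δ.φ s := by
      simp [Diagram.fold, swap_apply_of_ne_of_ne (Ne.symm hst) (Ne.symm hs)]
    obtain ⟨D', _, Δ', z', hz'', hlt⟩ :=
      hz'.remove_edge hS s (by rw [e]; exact hst) (by rw [e]; rfl)
    exact ih _ (hn ▸ hlt) D' _ Δ' z' hz'' rfl
  · push Not at h1 h2
    exact ⟨D, inferInstance, Δ, z, hz, h1, h2⟩

end Vale.Agent.P194
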