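import Vale.Agent.P194.Insert

/-! Diagrams whose vertices carry well defined positions. -/

namespace Vale.Agent.P194

open Equiv

variable {W Y D E G : Type} {S : W → Y × Bool → W → Prop}

/-- The positions `π` agree around every vertex of the diagram. -/
def Compat (π : W → G) (Δ : Diagram S D) : Prop := ∀ s, π (Δ.a (Δ.α s)) = π (Δ.a (Δ.φ s))

/-- A finite diagram with one marker and compatible positions. -/
def HasP (S : W → Y × Bool → W → Prop) (π : W → G) (A B : W) : Prop :=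
  ∃ (D : Type) (_ : Fintype D) (Δ : Diagram S D) (z : D), Marked Δ z A B ∧ Compat π Δ

theorem HasP.pos_eq {π : W → G} {A B : W} (h : HasP S π A B) : π A = π B := by
  obtain ⟨D, _, Δ, z, hz, hc⟩ := h
  have := hc z
  rwa [(hz.1 z).mpr rfl, hz.2.1, hz.2.2] at this

theorem Marked.remove_edgeP [Fintype D] (hS : Folded S) {π : W → G} {Δ : Diagram S D} {z : D}
    {A B : W} (hz : Marked Δ z A B) (hc : Compat π Δ) (s : D) (hs : Δ.α s ≠ s)
    (h : Δ.a (Δ.φ s) = Δ.a (Δ.α s)) :
    ∃ (D' : Type) (_ : Fintype D') (Δ' : Diagram S D') (z' : D'), Marked Δ' z' A B ∧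
      Compat π Δ' ∧ Fintype.card D' < Fintype.card D := by
  classical
  have hs' : Δ.α (Δ.α s) ≠ Δ.α s := by rw [Δ.invol]; exact hs.symm
  have h' : Δ.a (Δ.φ (Δ.α s)) = Δ.a s := by
    have h1 := hS.symm _ _ _ (Δ.step s hs)
    have h2 := Δ.step _ hs'
    rw [Δ.lab_α s hs, ← h] at h2
    exact hS.det _ _ _ _ h2 h1
  obtain ⟨Δ', hα, ha, hφ, -⟩ := Δ.remove s h h'
  have hzz := (hz.1 z).mpr rfl
  refine ⟨_, inferInstance, Δ', ⟨z, fun e => hs (e ▸ hzz), fun e => hs' (e ▸ hzz)⟩,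
    ⟨fun u => ?_, (ha _).trans hz.2.1, (hφ _).trans hz.2.2⟩, fun u => ?_, ?_⟩
  · rw [Subtype.ext_iff, hα, hz.1, Subtype.ext_iff]
  · rw [ha, hφ, hα]
    exact hc u
  · exact Fintype.card_subtype_lt (x := s) (by simp)

theorem Compat.fold [DecidableEq D] (hS : Folded S) {π : W → G} {Δ : Diagram S D}
    (hc : Compat π Δ) (s : D) (hs : Δ.α s ≠ s) (ht : Δ.α (Δ.φ s) ≠ Δ.φ s)
    (hl : Δ.lab (Δ.φ s) = linv (Δ.lab s)) (hne : Δ.α s ≠ Δ.φ s) :
    Compat π (Δ.fold s hs ht hl hne) := by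
  have hst : Δ.φ s ≠ s := fun e => linv_ne (Δ.lab s) (by rw [← hl, e])
  have key : Δ.a (Δ.φ (Δ.φ s)) = Δ.a s := by
    have h1 := hS.symm _ _ _ (Δ.step s hs)
    have h2 := Δ.step _ ht
    rw [hl] at h2
    exact hS.det _ _ _ _ h2 h1
  have h1 : ∀ x, π (Δ.a (swap (Δ.φ s) (Δ.α s) x)) = π (Δ.a x) := by
    intro x
    by_cases h2 : x = Δ.φ s
    · rw [h2, swap_apply_left, hc]
    by_cases h3 : x = Δ.α s
    · rw [h3, swap_apply_right, hc]
    · rw [swap_apply_of_ne_of_ne h2 h3]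
  intro u
  change π (Δ.a ((swap (Δ.φ s) (Δ.α s) * Δ.α * swap (Δ.φ s) (Δ.α s)) u)) = π (Δ.a (Δ.φ u))
  simp only [Perm.mul_apply]
  rw [h1, hc]
  by_cases h2 : u = Δ.φ s
  · rw [h2, swap_apply_left, ← hc, Δ.invol, key]
  by_cases h3 : u = Δ.α s
  · rw [h3, swap_apply_right, ← hc (Δ.α s), Δ.invol, key]
  · rw [swap_apply_of_ne_of_ne h2 h3]

theorem HasP.reduce (hS : Folded S) {π : W → G} {A B : W} (h : HasP S π A B) :
    ∃ (D : Type) (_ : Fintype D) (Δ : Diagram S D) (z : D),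
      Marked Δ z A B ∧ Compat π Δ ∧ Δ.Reduced := by
  classical
  obtain ⟨D, _, Δ, z, hz, hc⟩ := h
  induction hn : Fintype.card D using Nat.strong_induction_on generalizing D with
  | _ n ih =>
  by_cases h1 : ∃ s, Δ.α s ≠ s ∧ Δ.a (Δ.φ s) = Δ.a (Δ.α s)
  · obtain ⟨s, hs, h⟩ := h1
    obtain ⟨D', _, Δ', z', hz', hc', hlt⟩ := hz.remove_edgeP hS hc s hs h
    exact ih _ (hn ▸ hlt) D' _ Δ' z' hz' hc' rfl
  by_cases h2 : ∃ s, Δ.α s ≠ s ∧ Δ.α (Δ.φ s) ≠ Δ.φ s ∧ Δ.lab (Δ.φ s) = linv (Δ.lab s)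
  · obtain ⟨s, hs, ht, hl⟩ := h2
    have hne : Δ.α s ≠ Δ.φ s := fun e => h1 ⟨s, hs, by rw [e]⟩
    have hs' : Δ.α (Δ.α s) ≠ Δ.α s := by rw [Δ.invol]; exact hs.symm
    have hst : Δ.φ s ≠ s := fun e => linv_ne (Δ.lab s) (by rw [← hl, e])
    have hz' : Marked (Δ.fold s hs ht hl hne) z A B :=
      ⟨fun u => (Diagram.fold_aux _ _ ht hs' u).trans (hz.1 u), hz.2.1, hz.2.2⟩
    have e : (Δ.fold s hs ht hl hne).α s = Δ.φ s := by
      simp [Diagram.fold, swap_apply_of_ne_of_ne (Ne.symm hst) (Ne.symm hs)]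
    obtain ⟨D', _, Δ', z', hz'', hc', hlt⟩ :=
      hz'.remove_edgeP hS (hc.fold hS s hs ht hl hne) s (by rw [e]; exact hst) (by rw [e]; rfl)
    exact ih _ (hn ▸ hlt) D' _ Δ' z' hz'' hc' rfl
  · push Not at h1 h2
    exact ⟨D, inferInstance, Δ, z, hz, hc, h1, h2⟩

theorem Marked.wedgeP [Fintype E] {π : W → G} {Δ : Diagram S D} {z : D} {A B A' : W}
    (hz : Marked Δ z A B) (hc : Compat π Δ) {v : E} (P : Piece S E v A A')
    (p1 : ∀ e, e ≠ v → π (P.a (P.β e)) = π (P.a (P.ψ e))) (p2 : π (P.a (P.β v)) = π A')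
    (p3 : π A' = π B) :
    ∃ Δ' : Diagram S (D ⊕ E), (∀ d, Δ'.α (Sum.inl d) = Sum.inl (Δ.α d)) ∧
      (∀ e, Δ'.α (Sum.inr e) = Sum.inr (P.β e)) ∧ Δ'.a (Sum.inl z) = A' ∧
      Δ'.a (Δ'.φ (Sum.inl z)) = B ∧ (∀ e, Δ'.a (Sum.inr e) = P.a e) ∧
      (∀ e, e ≠ v → Δ'.φ (Sum.inr e) = Sum.inr (P.ψ e)) ∧ Compat π Δ' := by
  classical
  set u := Δ.φ⁻¹ z with hu
  have hφu : Δ.φ u = z := by simp [hu]
  set χ := Δ.φ.sumCongr P.ψ * swap (Sum.inl u) (Sum.inr v) with hχ
  have c1 : χ (Sum.inl u) = Sum.inr (P.ψ v) := by simp [hχ]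
  have c2 : χ (Sum.inr v) = Sum.inl z := by simp [hχ, hφu]
  have c3 : ∀ d, d ≠ u → χ (Sum.inl d) = Sum.inl (Δ.φ d) := by
    intro d hd
    have : swap (Sum.inl u) (Sum.inr v) (Sum.inl d : D ⊕ E) = Sum.inl d :=
      swap_apply_of_ne_of_ne (by simpa using hd) (by simp)
    simp [hχ, this]
  have c4 : ∀ e, e ≠ v → χ (Sum.inr e) = Sum.inr (P.ψ e) := by
    intro e he
    have : swap (Sum.inl u) (Sum.inr v) (Sum.inr e : D ⊕ E) = Sum.inr e :=
      swap_apply_of_ne_of_ne (by simp) (by simpa using he)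
    simp [hχ, this]
  let a' : D ⊕ E → W := Sum.elim (fun d => if d = z then A' else Δ.a d) P.a
  have ha : ∀ d, a' (χ (Sum.inl d)) = Δ.a (Δ.φ d) := by
    intro d
    by_cases hd : d = u
    · rw [hd, c1, hφu, hz.2.1]
      exact P.start
    · rw [c3 d hd]
      have : Δ.φ d ≠ z := fun e => hd (Δ.φ.injective (e.trans hφu.symm))
      simp [a', this]
  let Δ' : Diagram S (D ⊕ E) :=
    { φ := χ
      α := Δ.α.sumCongr P.β
      lab := Sum.elim Δ.lab P.lab
      a := a'
      invol := by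
        rintro (d | e)
        · simp [Δ.invol]
        · simp [P.invol]
      lab_α := by
        rintro (d | e) h
        · exact Δ.lab_α d (by simpa using h)
        · exact P.lab_β e (by simpa using h)
      step := by
        rintro (d | e) h
        · have h1 : Δ.α d ≠ d := by simpa using h
          have h2 : d ≠ z := fun e => h1 ((hz.1 d).mpr e)
          rw [ha]
          simpa [a', h2] using Δ.step d h1
        · have h1 : P.β e ≠ e := by simpa using h
          by_cases he : e = v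
          · rw [he, c2]
            simpa [a'] using P.stepv
          · rw [c4 e he]
            simpa [a'] using P.step e h1 he
      exact := Δ.exact.wedge P.exact u v }
  refine ⟨Δ', fun _ => rfl, fun _ => rfl, by simp [Δ', a'], (ha z).trans hz.2.2, fun _ => rfl,
    c4, ?_⟩
  rintro (d | e)
  · change π (a' (Sum.inl (Δ.α d))) = π (a' (χ (Sum.inl d)))
    rw [ha]
    by_cases hd : d = z
    · rw [hd, (hz.1 z).mpr rfl, hz.2.2]
      simpa [a'] using p3
    · have : Δ.α d ≠ z := by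
        intro e
        apply hd
        rw [← Δ.invol d, e]
        exact (hz.1 z).mpr rfl
      simpa [a', this] using hc d
  · change π (a' (Sum.inr (P.β e))) = π (a' (χ (Sum.inr e)))
    by_cases he : e = v
    · rw [he, c2]
      simpa [a'] using p2
    · rw [c4 e he]
      simpa [a'] using p1 e he

theorem HasP.insert0 [Fintype E] {π : W → G} {A B A' : W} (h : HasP S π A B) {v : E}
    (P : Piece S E v A A') (hP : ∀ e, P.β e ≠ e)
    (p1 : ∀ e, e ≠ v → π (P.a (P.β e)) = π (P.a (P.ψ e))) (p2 : π (P.a (P.β v)) = π A')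
    (p3 : π A' = π B) : HasP S π A' B := by
  obtain ⟨D, _, Δ, z, hz, hc⟩ := h
  obtain ⟨Δ', h1, h2, h3, h4, -, -, h7⟩ := hz.wedgeP hc P p1 p2 p3
  refine ⟨D ⊕ E, inferInstance, Δ', Sum.inl z, ⟨?_, h3, h4⟩, h7⟩
  rintro (d | e)
  · rw [h1]; simpa using hz.1 d
  · rw [h2]; simpa using hP e

theorem HasP.insert1 [Fintype E] {π : W → G} {A B : W} (h : HasP S π A B) {v : E}
    (P : Piece S E v A B) (y : E) (hy : y ≠ v) (hP : ∀ e, P.β e = e ↔ e = y)
    (p1 : ∀ e, e ≠ v → π (P.a (P.β e)) = π (P.a (P.ψ e))) (p2 : π (P.a (P.β v)) = π B) :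
    HasP S π (P.a y) (P.a (P.ψ y)) := by
  classical
  obtain ⟨D, _, Δ, z, hz, hc⟩ := h
  obtain ⟨Δ', h1, h2, h3, h4, h5, h6, h7⟩ := hz.wedgeP hc P p1 p2 rfl
  have hzz : Δ'.α (Sum.inl z) = Sum.inl z := by rw [h1, (hz.1 z).mpr rfl]
  obtain ⟨Δ'', g1, g2, g3, -⟩ := Δ'.remove (Sum.inl z) (by rw [hzz, h3, h4])
    (by rw [hzz, h3, h4])
  refine ⟨_, inferInstance, Δ'', ⟨Sum.inr y, by simp, by rw [hzz]; simp⟩, ⟨?_, ?_, ?_⟩, ?_⟩
  · rintro ⟨d | e, hd⟩
    · rw [Subtype.ext_iff, g1, Subtype.ext_iff]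
      have : d ≠ z := by simpa using hd.1
      simp [h1, hz.1, this]
    · rw [Subtype.ext_iff, g1, Subtype.ext_iff]
      simp [h2, hP]
  · rw [g2, h5]
  · rw [g3, h6 y hy, h5]
  · intro u
    rw [g2, g3, g1]
    exact h7 u

theorem HasP.refl (π : W → G) (A : W) [Inhabited Y] : HasP S π A A := by
  refine ⟨Unit, inferInstance,
    { φ := 1
      α := 1
      lab := fun _ => (default, true)
      a := fun _ => A
      invol := fun _ => rfl
      lab_α := fun _ h => absurd rfl h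
      step := fun _ h => absurd rfl h
      exact := fun k _ => ⟨k, fun _ => rfl, fun _ => rfl⟩ }, (), ⟨fun _ => by simp, rfl, rfl⟩,
    fun _ => rfl⟩

theorem HasP.transport (hS : Folded S) {π : W → G} {A B A' B' : W} {l : Y × Bool}
    (h : HasP S π A B) (hA : S A l A') (hB : S B l B') (hp : π A' = π B') : HasP S π A' B' := by
  let P : Piece S (Fin 3) 2 A B :=
    { ψ := ⟨![1, 2, 0], ![2, 0, 1], by decide, by decide⟩
      β := ⟨![2, 1, 0], ![2, 1, 0], by decide, by decide⟩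
      lab := ![l, l, linv l]
      a := ![A, A', B']
      invol := by decide
      lab_β := by
        intro s hs
        fin_cases s
        · rfl
        · exact absurd rfl hs
        · exact (linv_linv l).symm
      step := by
        intro s hs hv
        fin_cases s
        · exact hA
        · exact absurd rfl hs
        · exact absurd rfl hv
      stepv := hS.symm _ _ _ hB
      start := rfl
      exact := by
        intro k hk
        have h0 := hk 0
        have h1 := hk 1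
        refine ⟨fun _ => 0, fun _ => rfl, ?_⟩
        intro s
        fin_cases s <;> simp at h0 h1 ⊢ <;> linarith }
  refine h.insert1 P 1 (by decide) (by simp only [P]; decide) ?_ h.pos_eq
  intro e he
  fin_cases e
  · exact hp.symm
  · exact hp
  · exact absurd rfl he

theorem HasP.pillow (hS : Folded S) {π : W → G} {A A1 A2 A3 B p0 p1 p2 : W}
    {l1 l2 l3 : Y × Bool} (h : HasP S π A B) (a1 : S A l1 A1) (a2 : S A1 l2 A2)
    (a3 : S A2 l3 A3) (b1 : S p0 l1 p1) (b2 : S p1 l2 p2) (b3 : S p2 l3 p0)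
    (e0 : π p0 = π A) (e1 : π p1 = π A1) (e2 : π p2 = π A2) (e3 : π A3 = π A) :
    HasP S π A3 B := by
  let P : Piece S (Fin 6) 2 A A3 :=
    { ψ := ⟨![1, 2, 0, 5, 3, 4], ![2, 0, 1, 4, 5, 3], by decide, by decide⟩
      β := ⟨![3, 4, 5, 0, 1, 2], ![3, 4, 5, 0, 1, 2], by decide, by decide⟩
      lab := ![l1, l2, l3, linv l1, linv l2, linv l3]
      a := ![A, A1, A2, p1, p2, p0]
      invol := by decide
      lab_β := by
        intro s hs
        fin_cases s
        · rfl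
        · rfl
        · rfl
        · exact (linv_linv l1).symm
        · exact (linv_linv l2).symm
        · exact (linv_linv l3).symm
      step := by
        intro s hs hv
        fin_cases s
        · exact a1
        · exact a2
        · exact absurd rfl hv
        · exact hS.symm _ _ _ b1
        · exact hS.symm _ _ _ b2
        · exact hS.symm _ _ _ b3
      stepv := a3
      start := rfl
      exact := by
        intro k hk
        have h0 := hk 0
        have h1 := hk 1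
        have h2 := hk 2
        refine ⟨![0, 0, 0, k 3 - k 1, k 3 - k 1, k 3 - k 1], ?_, ?_⟩
        · intro s
          fin_cases s <;> simp
        · intro s
          fin_cases s <;> simp at h0 h1 h2 ⊢ <;> linarith }
  refine h.insert0 P (by simp only [P]; decide) ?_ (e0.trans e3.symm) (e3.trans h.pos_eq)
  intro e he
  fin_cases e
  · exact e1
  · exact e2
  · exact absurd rfl he
  · exact e0.symm
  · exact e1.symm
  · exact e2.symm

end Vale.Agent.P194
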