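import Vale.Agent.P194.Embed
import Vale.Agent.P194.Positions

/-! Homological linear isoperimetric inequality for the presented group. -/

namespace Vale.Agent.P194

open Equiv Sum

/-- The group element represented by a signed letter. -/
def letter {Y : Type} {rs : Set (FreeGroup Y)} (l : Y × Bool) : PresentedGroup rs :=
  PresentedGroup.mk rs (FreeGroup.mk [l])

theorem letter_true {Y : Type} {rs : Set (FreeGroup Y)} (y : Y) :
    (letter (y, true) : PresentedGroup rs) = PresentedGroup.of y := rfl

theorem letter_false {Y : Type} {rs : Set (FreeGroup Y)} (y : Y) :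
    (letter (y, false) : PresentedGroup rs) = (PresentedGroup.of y)⁻¹ := rfl

theorem letter_linv {Y : Type} {rs : Set (FreeGroup Y)} (l : Y × Bool) :
    (letter (linv l) : PresentedGroup rs) = (letter l)⁻¹ := by
  rw [letter, mk_linv, map_inv, letter]

theorem mk_eq_prod {Y : Type} {rs : Set (FreeGroup Y)} (L : List (Y × Bool)) :
    PresentedGroup.mk rs (FreeGroup.mk L) = (L.map letter).prod := by
  induction L with
  | nil => rfl
  | cons l L ih =>
    rw [List.map_cons, List.prod_cons, ← ih, letter, ← map_mul, FreeGroup.mul_mk]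
    rfl

/-- The sum of `ω` over the oriented edges of the path starting at `g` and reading a word. -/
def pathSum {Y : Type} {rs : Set (FreeGroup Y)} (ω : PresentedGroup rs → PresentedGroup rs → ℤ) :
    PresentedGroup rs → List (Y × Bool) → ℤ
  | _, [] => 0
  | g, l :: L => ω g (g * letter l) + pathSum ω (g * letter l) L

theorem pathSum_append {Y : Type} {rs : Set (FreeGroup Y)}
    (ω : PresentedGroup rs → PresentedGroup rs → ℤ) (L M : List (Y × Bool))
    (g : PresentedGroup rs) :
    pathSum ω g (L ++ M) = pathSum ω g L + pathSum ω (g * (L.map letter).prod) M := by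
  induction L generalizing g with
  | nil => simp [pathSum]
  | cons l L ih => simp [pathSum, ih, mul_assoc, add_assoc]

/-- The primitive of `ω` on the Cayley tree. -/
def prim {Y : Type} {rs : Set (FreeGroup Y)} (ω : PresentedGroup rs → PresentedGroup rs → ℤ)
    (hω : ∀ a b, ω a b = - ω b a) (g : PresentedGroup rs) : FreeGroup Y → ℤ :=
  Quot.lift (pathSum ω g) (by
    rintro _ _ @⟨L₁, L₂, x, b⟩
    have h1 : (letter (x, !b) : PresentedGroup rs) = (letter (x, b))⁻¹ := letter_linv (x, b)
    simp only [pathSum_append, pathSum, h1, mul_inv_cancel_right]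
    rw [hω (g * (List.map letter L₁).prod * letter (x, b))]
    ring)

theorem prim_mk {Y : Type} {rs : Set (FreeGroup Y)}
    (ω : PresentedGroup rs → PresentedGroup rs → ℤ) (hω : ∀ a b, ω a b = - ω b a)
    (g : PresentedGroup rs) (L : List (Y × Bool)) :
    prim ω hω g (FreeGroup.mk L) = pathSum ω g L := rfl

theorem prim_step {Y : Type} {rs : Set (FreeGroup Y)}
    (ω : PresentedGroup rs → PresentedGroup rs → ℤ) (hω : ∀ a b, ω a b = - ω b a)
    (g : PresentedGroup rs) (f : FreeGroup Y) (l : Y × Bool) :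
    prim ω hω g (f * FreeGroup.mk [l]) = prim ω hω g f +
      ω (g * PresentedGroup.mk rs f) (g * PresentedGroup.mk rs f * letter l) := by
  induction f using Quot.ind with
  | mk L =>
    change prim ω hω g (FreeGroup.mk L * FreeGroup.mk [l]) = prim ω hω g (FreeGroup.mk L) +
      ω (g * PresentedGroup.mk rs (FreeGroup.mk L))
        (g * PresentedGroup.mk rs (FreeGroup.mk L) * letter l)
    rw [FreeGroup.mul_mk, prim_mk, prim_mk, pathSum_append, mk_eq_prod]
    simp [pathSum]

/-- Equal or adjacent in the Cayley graph. -/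
def Near {Y : Type} {rs : Set (FreeGroup Y)} (a b : PresentedGroup rs) : Prop :=
  a = b ∨ ∃ l : Y × Bool, b = a * letter l

theorem Near.symm {Y : Type} {rs : Set (FreeGroup Y)} {a b : PresentedGroup rs} (h : Near a b) :
    Near b a := by
  rcases h with h | ⟨l, h⟩
  · exact Or.inl h.symm
  · exact Or.inr ⟨linv l, by rw [h, letter_linv, mul_inv_cancel_right]⟩

theorem finrank_invFun'_le_of_set {D : Type} [Fintype D] (σ : Perm D) (Ex : Finset D) (j : ℕ)
    (hj : 0 < j)
    (h : ∀ s, (∀ u ∈ Ex, ¬ σ.SameCycle s u) → ∀ i, 0 < i → i < j → (σ ^ i) s ≠ s) :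
    (Module.finrank ℚ (invFun' σ) : ℚ) ≤ Ex.card + (Fintype.card D : ℚ) / j := by
  classical
  have hj' : (0 : ℚ) < j := by exact_mod_cast hj
  have := finrank_invFun'_le σ (fun u => (if u ∈ Ex then 1 else 0) + 1 / (j : ℚ)) (by
    intro s
    by_cases hs : ∃ u ∈ Ex, σ.SameCycle s u
    · obtain ⟨u, hu, hs⟩ := hs
      have hz : u ∈ Finset.univ.filter (fun u => σ.SameCycle s u) := by simpa using hs
      have := Finset.single_le_sum (f := fun u => (if u ∈ Ex then (1 : ℚ) else 0) + 1 / (j : ℚ))
        (fun u _ => by split_ifs <;> positivity) hz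
      simp only [hu, if_true] at this
      have h0 : (0 : ℚ) ≤ 1 / j := by positivity
      linarith
    · push Not at hs
      have h1 := card_cycle_ge σ s j (h s hs)
      have h2 : ∑ u ∈ Finset.univ.filter (fun u => σ.SameCycle s u), 1 / (j : ℚ) ≤
          ∑ u ∈ Finset.univ.filter (fun u => σ.SameCycle s u),
          ((if u ∈ Ex then (1 : ℚ) else 0) + 1 / (j : ℚ)) := by
        refine Finset.sum_le_sum fun u _ => ?_
        split_ifs <;> simp
      refine le_trans ?_ h2
      rw [Finset.sum_const, nsmul_eq_mul, mul_one_div, le_div_iff₀ hj', one_mul]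
      exact_mod_cast h1)
  refine this.trans (le_of_eq ?_)
  rw [Finset.sum_add_distrib]
  simp [div_eq_mul_inv]

variable {V X : Type} {R : V → X → V → Prop}

/-- Vertices of the ambient graph together with a position. -/
abbrev PV (R : V → X → V → Prop) : Type :=
  (Option V × PresentedGroup (rels R)) ⊕ FreeGroup (X ⊕ V)

/-- Forget the position. -/
def proj : PV R → Option V ⊕ FreeGroup (X ⊕ V) := Sum.map Prod.fst id

/-- The position. -/
def posn (g0 : PresentedGroup (rels R)) : PV R → PresentedGroup (rels R) :=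
  Sum.elim Prod.snd fun f => g0 * PresentedGroup.mk _ f

/-- The ambient graph with positions. -/
def AmbP (g0 : PresentedGroup (rels R)) (a : PV R) (l : (X ⊕ V) × Bool) (b : PV R) : Prop :=
  Amb R (proj a) l (proj b) ∧ posn g0 b = posn g0 a * letter l

theorem pv_ext (g0 : PresentedGroup (rels R)) {a b : PV R} (h1 : proj a = proj b)
    (h2 : posn g0 a = posn g0 b) : a = b := by
  rcases a with ⟨a, g⟩ | a <;> rcases b with ⟨b, g'⟩ | b <;> simp_all [proj, posn]

theorem folded_ambP (h : SmallCanc R) (g0 : PresentedGroup (rels R)) : Folded (AmbP g0) where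
  symm := by
    rintro a l b ⟨h1, h2⟩
    exact ⟨(folded_amb h).symm _ _ _ h1, by rw [h2, letter_linv, mul_inv_cancel_right]⟩
  det := by
    rintro a l b b' ⟨h1, h2⟩ ⟨h3, h4⟩
    exact pv_ext g0 ((folded_amb h).det _ _ _ _ h1 h3) (h2.trans h4.symm)

theorem ambP_tree (g0 : PresentedGroup (rels R)) (g : FreeGroup (X ⊕ V)) (l : (X ⊕ V) × Bool) :
    AmbP g0 (inr g) l (inr (g * FreeGroup.mk [l])) :=
  ⟨Amb.tree g l, by simp [posn, letter, mul_assoc]⟩

theorem rel_edge {v w : V} {x : X} (h : R v x w) :
    (PresentedGroup.of (inr v) * PresentedGroup.of (inl x) : PresentedGroup (rels R)) =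
      PresentedGroup.of (inr w) := by
  have : (PresentedGroup.mk (rels R)) (FreeGroup.of (Sum.inr v) * FreeGroup.of (Sum.inl x) *
      (FreeGroup.of (Sum.inr w))⁻¹) = 1 :=
    PresentedGroup.one_of_mem ⟨v, x, w, h, rfl⟩
  simp only [map_mul, map_inv] at this
  exact mul_inv_eq_one.mp this

theorem rel_sedge {v w : V} {x : X} {b : Bool} (h : SR R v (x, b) w) :
    (PresentedGroup.of (inr v) * letter (inl x, b) : PresentedGroup (rels R)) =
      PresentedGroup.of (inr w) := by
  cases b
  · simp only [SR, Bool.false_eq_true, false_and, true_and, false_or] at h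
    rw [letter_false, ← rel_edge h, mul_inv_cancel_right]
  · simp only [SR, Bool.true_eq_false, false_and, true_and, or_false] at h
    rw [letter_true, rel_edge h]

theorem HasP.transport_group [Inhabited (X ⊕ V)] {g0 : PresentedGroup (rels R)}
    (hS : Folded (AmbP g0)) (k : FreeGroup (X ⊕ V)) :
    ∀ g h : FreeGroup (X ⊕ V), HasP (AmbP g0) (posn g0) (inr g) (inr h) →
      HasP (AmbP g0) (posn g0) (inr (g * k)) (inr (h * k)) := by
  have key : ∀ (l : (X ⊕ V) × Bool) (g h : FreeGroup (X ⊕ V)),
      HasP (AmbP g0) (posn g0) (inr g) (inr h) →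
      HasP (AmbP g0) (posn g0) (inr (g * FreeGroup.mk [l])) (inr (h * FreeGroup.mk [l])) := by
    intro l g h H
    refine H.transport hS (ambP_tree g0 g l) (ambP_tree g0 h l) ?_
    rw [(ambP_tree g0 g l).2, (ambP_tree g0 h l).2, H.pos_eq]
  induction k using FreeGroup.induction_on with
  | C1 => intro g h H; simpa using H
  | of y => exact key (y, true)
  | inv_of y _ => exact key (y, false)
  | mul a b ha hb =>
    intro g h H
    simpa [mul_assoc] using hb _ _ (ha _ _ H)

theorem HasP.triangle {g0 : PresentedGroup (rels R)} (hS : Folded (AmbP g0)) {v w : V} {x : X}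
    {b : Bool} (hvw : SR R v (x, b) w) {g h : FreeGroup (X ⊕ V)}
    (H : HasP (AmbP g0) (posn g0) (inr g) (inr h)) :
    HasP (AmbP g0) (posn g0) (inr (g * FreeGroup.mk [(inr v, true)] * FreeGroup.mk [(inl x, b)] *
      FreeGroup.mk [(inr w, false)])) (inr h) := by
  have e := rel_sedge hvw
  have a1 := ambP_tree g0 g (inr v, true)
  have a2 := ambP_tree g0 (g * FreeGroup.mk [(inr v, true)]) (inl x, b)
  have a3 := ambP_tree g0 (g * FreeGroup.mk [(inr v, true)] * FreeGroup.mk [(inl x, b)])
    (inr w, false)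
  set p := posn g0 (inr g) with hp
  have e2 : p * letter (inr v, true) * letter (inl x, b) * letter (inr w, false) = p := by
    rw [letter_true, letter_false, mul_assoc p, e, mul_inv_cancel_right]
  refine H.pillow hS a1 a2 a3 (p0 := inl (none, p))
    (p1 := inl (some v, p * letter (inr v, true)))
    (p2 := inl (some w, p * letter (inr v, true) * letter (inl x, b)))
    ⟨Amb.out v, rfl⟩ ⟨Amb.gam v w x b hvw, rfl⟩ ⟨Amb.inn w, e2.symm⟩ rfl ?_ ?_ ?_
  · rw [a1.2]; rfl
  · rw [a2.2, a1.2]; rfl
  · rw [a3.2, a2.2, a1.2]; exact e2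

theorem hasP_of_mem [Inhabited (X ⊕ V)] {g0 : PresentedGroup (rels R)} (hS : Folded (AmbP g0))
    {w : FreeGroup (X ⊕ V)} (hw : w ∈ Subgroup.normalClosure (rels R)) (g h : FreeGroup (X ⊕ V))
    (H : HasP (AmbP g0) (posn g0) (inr g) (inr h)) :
    HasP (AmbP g0) (posn g0) (inr (g * w)) (inr h) := by
  let N : Subgroup (FreeGroup (X ⊕ V)) :=
    { carrier := {w | (∀ g h, HasP (AmbP g0) (posn g0) (inr g) (inr h) →
          HasP (AmbP g0) (posn g0) (inr (g * w)) (inr h)) ∧
        ∀ g h, HasP (AmbP g0) (posn g0) (inr g) (inr h) →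
          HasP (AmbP g0) (posn g0) (inr (g * w⁻¹)) (inr h)}
      one_mem' := ⟨fun g h H => by simpa using H, fun g h H => by simpa using H⟩
      mul_mem' := by
        rintro a b ⟨ha, ha'⟩ ⟨hb, hb'⟩
        exact ⟨fun g h H => by simpa [mul_assoc] using hb _ _ (ha _ _ H),
          fun g h H => by simpa [mul_assoc] using ha' _ _ (hb' _ _ H)⟩
      inv_mem' := by
        rintro a ⟨ha, ha'⟩
        exact ⟨ha', by simpa using ha⟩ }
  have hN : N.Normal := ⟨by
    rintro n ⟨hn, hn'⟩ k
    refine ⟨fun g h H => ?_, fun g h H => ?_⟩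
    · simpa [mul_assoc] using
        HasP.transport_group hS k⁻¹ _ _ (hn _ _ (HasP.transport_group hS k _ _ H))
    · simpa [mul_assoc] using
        HasP.transport_group hS k⁻¹ _ _ (hn' _ _ (HasP.transport_group hS k _ _ H))⟩
  have hr : rels R ⊆ N := by
    rintro _ ⟨v, x, w, hvw, rfl⟩
    refine ⟨fun g h H => ?_, fun g h H => ?_⟩
    · have := H.triangle hS (b := true) (Or.inl ⟨rfl, hvw⟩)
      simp only [mul_assoc] at this ⊢
      exact this
    · have := H.triangle hS (b := false) (Or.inr ⟨rfl, hvw⟩)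
      simp only [mul_inv_rev, inv_inv, mul_assoc] at this ⊢
      exact this
  exact (Subgroup.normalClosure_le_normal hr hw).1 g h H

/-- A reduced diagram with positions for a word trivial in the group. -/
theorem exists_reduced [Inhabited (X ⊕ V)] (h : SmallCanc R) (g0 : PresentedGroup (rels R))
    {w : FreeGroup (X ⊕ V)} (hw : PresentedGroup.mk (rels R) w = 1) :
    ∃ (D : Type) (_ : Fintype D) (Δ : Diagram (Amb R) D) (z : D)
      (pos : D → PresentedGroup (rels R)), Marked Δ z (inr w) (inr 1) ∧ Δ.Reduced ∧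
      (∀ s, pos (Δ.α s) = pos (Δ.φ s)) ∧
      (∀ s, Δ.α s ≠ s → pos (Δ.φ s) = pos s * letter (Δ.lab s)) ∧
      ∀ s f, Δ.a s = inr f → pos s = g0 * PresentedGroup.mk _ f := by
  have hS := folded_ambP h g0
  have H := hasP_of_mem hS (PresentedGroup.mk_eq_one_iff.mp hw) 1 1 (HasP.refl _ _)
  rw [one_mul] at H
  obtain ⟨D, _, Δ, z, hz, hc, hr⟩ := H.reduce hS
  let Δ' : Diagram (Amb R) D :=
    { φ := Δ.φ
      α := Δ.α
      lab := Δ.lab
      a := fun s => proj (Δ.a s)
      invol := Δ.invol
      lab_α := Δ.lab_α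
      step := fun s hs => (Δ.step s hs).1
      exact := Δ.exact }
  refine ⟨D, inferInstance, Δ', z, fun s => posn g0 (Δ.a s),
    ⟨hz.1, congrArg proj hz.2.1, congrArg proj hz.2.2⟩, ⟨fun s hs e => ?_, hr.2⟩, hc,
    fun s hs => (Δ.step s hs).2, fun s f e => ?_⟩
  · exact hr.1 s hs (pv_ext g0 e (hc s).symm)
  · change proj (Δ.a s) = inr f at e
    change posn g0 (Δ.a s) = _
    generalize Δ.a s = a at e
    rcases a with a | a
    · cases e
    · cases e; rfl

end Vale.Agent.P194
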