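import Mathlib

/-! Combinatorial maps given by two permutations, and the vanishing of first cohomology. -/

namespace Vale.Agent.P194

open Equiv

/-- Every cochain whose face-coboundary is antisymmetric under `α` is the sum of a face function
and a vertex function. -/
def Exact {D : Type} (φ α : Perm D) : Prop :=
  ∀ k : D → ℚ, (∀ s, k (φ (α s)) + k (φ s) = k (α s) + k s) →
    ∃ m : D → ℚ, (∀ s, m (φ s) = m s) ∧ ∀ s, k (α s) - m (α s) = k (φ s) - m (φ s)

theorem Exact.detach {D : Type} [DecidableEq D] {φ α : Perm D} (hα : ∀ s, α (α s) = s)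
    (h : Exact φ α) (s : D) : Exact (φ * swap (φ⁻¹ (α s)) s) α := by
  set t := α s with ht
  set c := φ⁻¹ t with hc
  have hφc : φ c = t := by simp [hc]
  have hαt : α t = s := by rw [ht, hα]
  by_cases hcs : c = s
  · rw [hcs, swap_self]
    exact h
  have hbt : φ s ≠ t := by
    intro e
    exact hcs (φ.injective (by rw [hφc, e]))
  intro k' hk'
  have e1 : (φ * swap c s) s = t := by simp [hφc]
  have e2 : (φ * swap c s) c = φ s := by simp
  have e3 : ∀ u, u ≠ c → u ≠ s → (φ * swap c s) u = φ u := by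
    intro u h1 h2
    simp [swap_apply_of_ne_of_ne h1 h2]
  have e4 : ∀ u, u ≠ c → φ u ≠ t := by
    intro u h1 e
    exact h1 (φ.injective (by rw [hφc, e]))
  set k : D → ℚ := Function.update k' t (k' (φ s)) with hk
  have kt : k t = k' (φ s) := by simp [hk]
  have kn : ∀ u, u ≠ t → k u = k' u := by
    intro u hu
    simp [hk, Function.update_of_ne hu]
  have kφ : ∀ u, u ≠ s → k (φ u) = k' ((φ * swap c s) u) := by
    intro u hu
    by_cases huc : u = c
    · rw [huc, e2, hφc, kt]
    · rw [e3 u huc hu, kn _ (e4 u huc)]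
  have hst : k (φ t) + k (φ s) = k t + k s := by
    by_cases hts : t = s
    · have : k (φ s) = k t := by rw [kt, kn _ hbt]
      rw [hts] at this ⊢
      rw [this]
    · have h1 := hk' s
      rw [e1, ← ht] at h1
      rw [kφ t hts, kn _ hbt, kt, kn s (Ne.symm hts)]
      linarith
  have hZ : ∀ u, k (φ (α u)) + k (φ u) = k (α u) + k u := by
    intro u
    by_cases hus : u = s
    · rw [hus, ← ht]; exact hst
    by_cases hut : u = t
    · rw [hut, hαt]; linarith
    have h1 : α u ≠ s := by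
      intro e; apply hut; rw [ht, ← e, hα]
    have h2 : α u ≠ t := by
      intro e; apply hus; rw [← hαt, ← e, hα]
    rw [kφ _ h1, kφ _ hus, kn _ h2, kn _ hut]
    exact hk' u
  obtain ⟨m, hm, hh⟩ := h k hZ
  have hmst : m s = m t := by
    have h1 := hh t
    rw [hαt, hm] at h1
    have h2 : k (φ s) = k t := by rw [kt, kn _ hbt]
    linarith
  refine ⟨m, ?_, ?_⟩
  · intro u
    by_cases hus : u = s
    · rw [hus, e1, hmst]
    by_cases huc : u = c
    · rw [huc, e2, hm, hmst, ← hφc, hm]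
    · rw [e3 u huc hus, hm]
  · intro u
    by_cases hus : u = s
    · rw [hus, e1]
    have h2 : α u ≠ t := by
      intro e; apply hus; rw [← hαt, ← e, hα]
    by_cases huc : u = c
    · have h3 := hh c
      have h4 := hh s
      rw [hφc] at h3
      rw [← ht] at h4
      rw [huc] at h2
      rw [huc, e2, ← kn _ h2, ← kn _ hbt]
      linarith
    · rw [e3 u huc hus, ← kn _ h2, ← kn _ (e4 u huc)]
      exact hh u

theorem Exact.fold {D : Type} [DecidableEq D] {φ α : Perm D} (hα : ∀ s, α (α s) = s)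
    (h : Exact φ α) (s : D) (hs : α s ≠ s) (ht : α (φ s) ≠ φ s) (hst : φ s ≠ s)
    (hne : α s ≠ φ s) : Exact φ (swap (φ s) (α s) * α * swap (φ s) (α s)) := by
  set t := φ s with htd
  set s' := α s with hs'
  set t' := α t with ht'
  have hαs' : α s' = s := by rw [hs', hα]
  have hαt' : α t' = t := by rw [ht', hα]
  have n1 : t' ≠ s' := by
    intro e; apply hst; rw [← hαt', e, hαs']
  have n2 : t' ≠ s := by
    intro e; apply hne; rw [hs', ← e, hαt']
  set β := swap t s' * α * swap t s' with hβ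
  have b1 : β s = t := by
    simp [hβ, swap_apply_of_ne_of_ne (Ne.symm hst) (Ne.symm hs), ← hs']
  have b2 : β t = s := by
    simp [hβ, hαs', swap_apply_of_ne_of_ne (Ne.symm hst) (Ne.symm hs)]
  have b3 : β s' = t' := by
    simp [hβ, ← ht', swap_apply_of_ne_of_ne ht n1]
  have b4 : β t' = s' := by
    simp [hβ, swap_apply_of_ne_of_ne ht n1, hαt']
  have b5 : ∀ u, u ≠ s → u ≠ t → u ≠ s' → u ≠ t' → β u = α u := by
    intro u h1 h2 h3 h4
    have h5 : α u ≠ t := by
      intro e; apply h4; rw [ht', ← e, hα]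
    have h6 : α u ≠ s' := by
      intro e; apply h1; rw [← hαs', ← e, hα]
    simp [hβ, swap_apply_of_ne_of_ne h2 h3, swap_apply_of_ne_of_ne h5 h6]
  intro k hk
  have e4 : ∀ u, u ≠ s → φ u ≠ t := by
    intro u h1 e
    exact h1 (φ.injective e)
  set k' : D → ℚ := Function.update k t (k s + k s' - k (φ s')) with hk'
  have kt : k' t = k s + k s' - k (φ s') := by simp [hk']
  have kn : ∀ u, u ≠ t → k' u = k u := by
    intro u hu
    simp [hk', Function.update_of_ne hu]
  have q1 := hk s
  have q2 := hk s'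
  rw [b1, ← htd] at q1
  rw [b3] at q2
  have f1 : k' (φ s') = k (φ s') := kn _ (e4 _ hs)
  have f2 : k' (φ t) = k (φ t) := kn _ (e4 _ hst)
  have f3 : k' (φ t') = k (φ t') := kn _ (e4 _ n2)
  have f4 : k' s = k s := kn _ (Ne.symm hst)
  have f5 : k' s' = k s' := kn _ hne
  have f6 : k' t' = k t' := kn _ ht
  have hZ : ∀ u, k' (φ (α u)) + k' (φ u) = k' (α u) + k' u := by
    intro u
    by_cases h1 : u = s
    · rw [h1, ← hs', ← htd]; linarith
    by_cases h2 : u = t
    · rw [h2, ← ht']; linarith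
    by_cases h3 : u = s'
    · rw [h3, hαs', ← htd]; linarith
    by_cases h4 : u = t'
    · rw [h4, hαt']; linarith
    have h5 : α u ≠ t := by
      intro e; apply h4; rw [ht', ← e, hα]
    have h6 : α u ≠ s := by
      intro e; apply h3; rw [hs', ← e, hα]
    rw [kn _ (e4 _ h6), kn _ (e4 _ h1), kn _ h5, kn _ h2, ← b5 u h1 h2 h3 h4]
    exact hk u
  obtain ⟨m, hm, hh⟩ := h k' hZ
  refine ⟨m, hm, ?_⟩
  have g1 := hh s
  have g2 := hh s'
  have g3 := hh t
  have g4 := hh t'
  rw [← hs', ← htd] at g1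
  rw [hαs'] at g2
  rw [← ht'] at g3
  rw [hαt'] at g4
  have m1 : m t = m s := hm s
  have m2 : m (φ t) = m t := hm t
  intro u
  by_cases h1 : u = s
  · rw [h1, b1]
  by_cases h2 : u = t
  · rw [h2, b2]; linarith
  by_cases h3 : u = s'
  · rw [h3, b3]; linarith
  by_cases h4 : u = t'
  · rw [h4, b4]; linarith
  have h5 : α u ≠ t := by
    intro e; apply h4; rw [ht', ← e, hα]
  rw [b5 u h1 h2 h3 h4, ← kn _ h5, ← kn _ (e4 _ h1)]
  exact hh u

theorem Exact.restrict {D : Type} {φ α : Perm D} (h : Exact φ α) {p : D → Prop}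
    (h1 : ∀ x, p (φ x) ↔ p x) (h2 : ∀ x, p (α x) ↔ p x) :
    Exact (φ.subtypePerm h1) (α.subtypePerm h2) := by
  classical
  intro k' hk'
  let k : D → ℚ := fun x => if hx : p x then k' ⟨x, hx⟩ else 0
  have kp : ∀ x : {x // p x}, k x = k' x := by
    intro x; simp [k, x.2]
  have kn : ∀ x, ¬ p x → k x = 0 := by
    intro x hx; simp [k, hx]
  obtain ⟨m, hm, hh⟩ := h k (by
    intro s
    by_cases hs : p s
    · have := hk' ⟨s, hs⟩
      rw [← kp, ← kp, ← kp, ← kp] at this
      simpa using this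
    · rw [kn s hs, kn (α s) (by rwa [h2]), kn (φ s) (by rwa [h1]),
        kn (φ (α s)) (by rwa [h1, h2])])
  refine ⟨fun x => m x, fun s => by simpa using hm s, fun s => ?_⟩
  rw [← kp, ← kp]
  simpa using hh s

theorem Exact.wedge {D E : Type} [DecidableEq D] [DecidableEq E] [Fintype E]
    {φ α : Perm D} {ψ β : Perm E} (h : Exact φ α) (h' : Exact ψ β) (u : D) (v : E) :
    Exact (φ.sumCongr ψ * swap (Sum.inl u) (Sum.inr v)) (α.sumCongr β) := by
  set χ := φ.sumCongr ψ * swap (Sum.inl u) (Sum.inr v) with hχ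
  have c1 : χ (Sum.inl u) = Sum.inr (ψ v) := by simp [hχ]
  have c2 : χ (Sum.inr v) = Sum.inl (φ u) := by simp [hχ]
  have c3 : ∀ d, d ≠ u → χ (Sum.inl d) = Sum.inl (φ d) := by
    intro d hd
    have : swap (Sum.inl u) (Sum.inr v) (Sum.inl d : D ⊕ E) = Sum.inl d :=
      swap_apply_of_ne_of_ne (by simpa using hd) (by simp)
    simp [hχ, this]
  have c4 : ∀ e, e ≠ v → χ (Sum.inr e) = Sum.inr (ψ e) := by
    intro e he
    have : swap (Sum.inl u) (Sum.inr v) (Sum.inr e : D ⊕ E) = Sum.inr e :=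
      swap_apply_of_ne_of_ne (by simp) (by simpa using he)
    simp [hχ, this]
  intro k hk
  have key : k (Sum.inl (φ u)) = k (Sum.inr (ψ v)) := by
    have s1 : ∑ e : E, (k (χ (Sum.inr (β e))) + k (χ (Sum.inr e))) =
        ∑ e : E, (k (Sum.inr (β e)) + k (Sum.inr e)) :=
      Finset.sum_congr rfl fun e _ => by simpa using hk (Sum.inr e)
    rw [Finset.sum_add_distrib, Finset.sum_add_distrib,
      Equiv.sum_comp β (fun e => k (χ (Sum.inr e))),
      Equiv.sum_comp β (fun e => k (Sum.inr e))] at s1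
    have s2 : ∑ e : E, k (χ (Sum.inr e)) = ∑ e : E, (k (Sum.inr (ψ e)) +
        if e = v then k (Sum.inl (φ u)) - k (Sum.inr (ψ v)) else 0) := by
      refine Finset.sum_congr rfl fun e _ => ?_
      by_cases he : e = v
      · rw [he, c2]; simp
      · rw [c4 e he]; simp [he]
    rw [Finset.sum_add_distrib, Equiv.sum_comp ψ (fun e => k (Sum.inr e))] at s2
    simp only [Finset.sum_ite_eq', Finset.mem_univ, if_true] at s2
    linarith
  have kl : ∀ d, k (χ (Sum.inl d)) = k (Sum.inl (φ d)) := by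
    intro d
    by_cases hd : d = u
    · rw [hd, c1, key]
    · rw [c3 d hd]
  have kr : ∀ e, k (χ (Sum.inr e)) = k (Sum.inr (ψ e)) := by
    intro e
    by_cases he : e = v
    · rw [he, c2, key]
    · rw [c4 e he]
  obtain ⟨m1, hm1, hh1⟩ := h (fun d => k (Sum.inl d)) (by
    intro d
    have := hk (Sum.inl d)
    simp only [sumCongr_apply, Sum.map_inl] at this
    rwa [kl, kl] at this)
  obtain ⟨m2, hm2, hh2⟩ := h' (fun e => k (Sum.inr e)) (by
    intro e
    have := hk (Sum.inr e)
    simp only [sumCongr_apply, Sum.map_inr] at this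
    rwa [kr, kr] at this)
  let m : D ⊕ E → ℚ := Sum.elim m1 fun e => m2 e - m2 v + m1 u
  have ml : ∀ d, m (χ (Sum.inl d)) = m1 d := by
    intro d
    by_cases hd : d = u
    · rw [hd, c1]; simp [m, hm2]
    · rw [c3 d hd]; simp [m, hm1]
  have mr : ∀ e, m (χ (Sum.inr e)) = m2 e - m2 v + m1 u := by
    intro e
    by_cases he : e = v
    · rw [he, c2]; simp [m, hm1]
    · rw [c4 e he]; simp [m, hm2]
  refine ⟨m, ?_, ?_⟩
  · rintro (d | e)
    · rw [ml]; rfl
    · rw [mr]; rfl
  · rintro (d | e)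
    · rw [kl, ml]
      have := hh1 d
      rw [hm1] at this
      simpa [m] using this
    · rw [kr, mr]
      have := hh2 e
      rw [hm2] at this
      simp only [sumCongr_apply, Sum.map_inr, m, Sum.elim_inr]
      linarith

end Vale.Agent.P194
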