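import Vale.Agent.P194.Diagram

/-! Building diagrams by inserting small pieces in front of the marker. -/

namespace Vale.Agent.P194

open Equiv

/-- A small piece to be inserted in front of a marker: it starts at `A` and its dart `v` ends
at `A'`. -/
structure Piece {W Y : Type} (S : W → Y × Bool → W → Prop) (E : Type) (v : E) (A A' : W) where
  ψ : Perm E
  β : Perm E
  lab : E → Y × Bool
  a : E → W
  invol : ∀ s, β (β s) = s
  lab_β : ∀ s, β s ≠ s → lab (β s) = linv (lab s)
  step : ∀ s, β s ≠ s → s ≠ v → S (a s) (lab s) (a (ψ s))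
  stepv : S (a v) (lab v) A'
  start : a (ψ v) = A
  exact : Exact ψ β

variable {W Y D E : Type} {S : W → Y × Bool → W → Prop}

theorem Marked.wedge [Fintype E] {Δ : Diagram S D} {z : D} {A B A' : W} (hz : Marked Δ z A B)
    {v : E} (P : Piece S E v A A') :
    ∃ Δ' : Diagram S (D ⊕ E), (∀ d, Δ'.α (Sum.inl d) = Sum.inl (Δ.α d)) ∧
      (∀ e, Δ'.α (Sum.inr e) = Sum.inr (P.β e)) ∧ Δ'.a (Sum.inl z) = A' ∧
      Δ'.a (Δ'.φ (Sum.inl z)) = B ∧ (∀ e, Δ'.a (Sum.inr e) = P.a e) ∧
      ∀ e, e ≠ v → Δ'.φ (Sum.inr e) = Sum.inr (P.ψ e) := by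
  classical
  set u := Δ.φ⁻¹ z with hu
  have hφu : Δ.φ u = z := by simp [hu]
  set χ := Δ.φ.sumCongr P.ψ * swap (Sum.inl u) (Sum.inr v) with hχ
  have c1 : χ (Sum.inl u) = Sum.inr (P.ψ v) := by simp [hχ]
  have c2 : χ (Sum.inr v) = Sum.inl z := by simp [hχ, hφu]
  have c3 : ∀ d, d ≠ u → χ (Sum.inl d) = Sum.inl (Δ.φ d) := by
    intro d hd
    have : swap (Sum.inl u) (Sum.inr v) (Sum.inl d : D ⊕ E) = Sum.inl d :=
      swap_apply_of_ne_of_ne (by simpa using hd) (by simp)
    simp [hχ, this]
  have c4 : ∀ e, e ≠ v → χ (Sum.inr e) = Sum.inr (P.ψ e) := by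
    intro e he
    have : swap (Sum.inl u) (Sum.inr v) (Sum.inr e : D ⊕ E) = Sum.inr e :=
      swap_apply_of_ne_of_ne (by simp) (by simpa using he)
    simp [hχ, this]
  let a' : D ⊕ E → W := Sum.elim (fun d => if d = z then A' else Δ.a d) P.a
  have ha : ∀ d, a' (χ (Sum.inl d)) = Δ.a (Δ.φ d) := by
    intro d
    by_cases hd : d = u
    · rw [hd, c1, hφu, hz.2.1]
      exact P.start
    · rw [c3 d hd]
      have : Δ.φ d ≠ z := fun e => hd (Δ.φ.injective (e.trans hφu.symm))
      simp [a', this]
  let Δ' : Diagram S (D ⊕ E) :=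
    { φ := χ
      α := Δ.α.sumCongr P.β
      lab := Sum.elim Δ.lab P.lab
      a := a'
      invol := by
        rintro (d | e)
        · simp [Δ.invol]
        · simp [P.invol]
      lab_α := by
        rintro (d | e) h
        · exact Δ.lab_α d (by simpa using h)
        · exact P.lab_β e (by simpa using h)
      step := by
        rintro (d | e) h
        · have h1 : Δ.α d ≠ d := by simpa using h
          have h2 : d ≠ z := fun e => h1 ((hz.1 d).mpr e)
          rw [ha]
          simpa [a', h2] using Δ.step d h1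
        · have h1 : P.β e ≠ e := by simpa using h
          by_cases he : e = v
          · rw [he, c2]
            simpa [a'] using P.stepv
          · rw [c4 e he]
            simpa [a'] using P.step e h1 he
      exact := Δ.exact.wedge P.exact u v }
  refine ⟨Δ', fun _ => rfl, fun _ => rfl, by simp [Δ', a'], ?_, fun _ => rfl, c4⟩
  exact (ha z).trans hz.2.2

theorem Has1.insert0 [Fintype E] {A B A' : W} (h : Has1 S A B) {v : E} (P : Piece S E v A A')
    (hP : ∀ e, P.β e ≠ e) : Has1 S A' B := by
  obtain ⟨D, _, Δ, z, hz⟩ := h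
  obtain ⟨Δ', h1, h2, h3, h4, -, -⟩ := hz.wedge P
  refine ⟨D ⊕ E, inferInstance, Δ', Sum.inl z, ?_, h3, h4⟩
  rintro (d | e)
  · rw [h1]; simpa using hz.1 d
  · rw [h2]; simpa using hP e

theorem Has1.insert1 [Fintype E] {A B : W} (h : Has1 S A B) {v : E} (P : Piece S E v A B)
    (y : E) (hy : y ≠ v) (hP : ∀ e, P.β e = e ↔ e = y) : Has1 S (P.a y) (P.a (P.ψ y)) := by
  classical
  obtain ⟨D, _, Δ, z, hz⟩ := h
  obtain ⟨Δ', h1, h2, h3, h4, h5, h6⟩ := hz.wedge P
  have hzz : Δ'.α (Sum.inl z) = Sum.inl z := by rw [h1, (hz.1 z).mpr rfl]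
  obtain ⟨Δ'', g1, g2, g3, -⟩ := Δ'.remove (Sum.inl z) (by rw [hzz, h3, h4])
    (by rw [hzz, h3, h4])
  refine ⟨_, inferInstance, Δ'', ⟨Sum.inr y, by simp, by rw [hzz]; simp⟩, ?_, ?_, ?_⟩
  · rintro ⟨d | e, hd⟩
    · rw [Subtype.ext_iff, g1, Subtype.ext_iff]
      have : d ≠ z := by simpa using hd.1
      simp [h1, hz.1, this]
    · rw [Subtype.ext_iff, g1, Subtype.ext_iff]
      simp [h2, hP]
  · rw [g2, h5]
  · rw [g3, h6 y hy, h5]

theorem Has1.refl (A : W) [Inhabited Y] : Has1 S A A := by
  refine ⟨Unit, inferInstance,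
    { φ := 1
      α := 1
      lab := fun _ => (default, true)
      a := fun _ => A
      invol := fun _ => rfl
      lab_α := fun _ h => absurd rfl h
      step := fun _ h => absurd rfl h
      exact := fun k _ => ⟨k, fun _ => rfl, fun _ => rfl⟩ }, (), fun _ => by simp, rfl, rfl⟩

theorem Has1.transport (hS : Folded S) {A B A' B' : W} {l : Y × Bool} (h : Has1 S A B)
    (hA : S A l A') (hB : S B l B') : Has1 S A' B' := by
  let P : Piece S (Fin 3) 2 A B :=
    { ψ := ⟨![1, 2, 0], ![2, 0, 1], by decide, by decide⟩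
      β := ⟨![2, 1, 0], ![2, 1, 0], by decide, by decide⟩
      lab := ![l, l, linv l]
      a := ![A, A', B']
      invol := by decide
      lab_β := by
        intro s hs
        fin_cases s
        · rfl
        · exact absurd rfl hs
        · exact (linv_linv l).symm
      step := by
        intro s hs hv
        fin_cases s
        · exact hA
        · exact absurd rfl hs
        · exact absurd rfl hv
      stepv := hS.symm _ _ _ hB
      start := rfl
      exact := by
        intro k hk
        have h0 := hk 0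
        have h1 := hk 1
        refine ⟨fun _ => 0, fun _ => rfl, ?_⟩
        intro s
        fin_cases s <;> simp at h0 h1 ⊢ <;> linarith }
  exact h.insert1 P 1 (by decide) (by simp only [P]; decide)

theorem Has1.pillow (hS : Folded S) {A A1 A2 A3 B p0 p1 p2 : W} {l1 l2 l3 : Y × Bool}
    (h : Has1 S A B) (a1 : S A l1 A1) (a2 : S A1 l2 A2) (a3 : S A2 l3 A3)
    (b1 : S p0 l1 p1) (b2 : S p1 l2 p2) (b3 : S p2 l3 p0) : Has1 S A3 B := by
  let P : Piece S (Fin 6) 2 A A3 :=
    { ψ := ⟨![1, 2, 0, 5, 3, 4], ![2, 0, 1, 4, 5, 3], by decide, by decide⟩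
      β := ⟨![3, 4, 5, 0, 1, 2], ![3, 4, 5, 0, 1, 2], by decide, by decide⟩
      lab := ![l1, l2, l3, linv l1, linv l2, linv l3]
      a := ![A, A1, A2, p1, p2, p0]
      invol := by decide
      lab_β := by
        intro s hs
        fin_cases s
        · rfl
        · rfl
        · rfl
        · exact (linv_linv l1).symm
        · exact (linv_linv l2).symm
        · exact (linv_linv l3).symm
      step := by
        intro s hs hv
        fin_cases s
        · exact a1
        · exact a2
        · exact absurd rfl hv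
        · exact hS.symm _ _ _ b1
        · exact hS.symm _ _ _ b2
        · exact hS.symm _ _ _ b3
      stepv := a3
      start := rfl
      exact := by
        intro k hk
        have h0 := hk 0
        have h1 := hk 1
        have h2 := hk 2
        refine ⟨![0, 0, 0, k 3 - k 1, k 3 - k 1, k 3 - k 1], ?_, ?_⟩
        · intro s
          fin_cases s <;> simp
        · intro s
          fin_cases s <;> simp at h0 h1 h2 ⊢ <;> linarith }
  exact h.insert0 P (by simp only [P]; decide)

theorem Has1.bigon (hS : Folded S) {A A1 B C C1 C' : W} {l1 l2 : Y × Bool}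
    (h : Has1 S A B) (a1 : S A l2 A1) (a2 : S A1 l1 B)
    (b1 : S C l2 C1) (b2 : S C1 l1 C') : Has1 S C C' := by
  let P : Piece S (Fin 5) 1 A B :=
    { ψ := ⟨![1, 0, 3, 4, 2], ![1, 0, 4, 2, 3], by decide, by decide⟩
      β := ⟨![4, 3, 2, 1, 0], ![4, 3, 2, 1, 0], by decide, by decide⟩
      lab := ![l2, l1, l1, linv l1, linv l2]
      a := ![A, A1, C, C', C1]
      invol := by decide
      lab_β := by
        intro s hs
        fin_cases s
        · rfl
        · rfl
        · exact absurd rfl hs
        · exact (linv_linv l1).symm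
        · exact (linv_linv l2).symm
      step := by
        intro s hs hv
        fin_cases s
        · exact a1
        · exact absurd rfl hv
        · exact absurd rfl hs
        · exact hS.symm _ _ _ b2
        · exact hS.symm _ _ _ b1
      stepv := a2
      start := rfl
      exact := by
        intro k hk
        have h0 := hk 0
        have h1 := hk 1
        have h2 := hk 2
        refine ⟨![0, 0, k 4 - k 1, k 4 - k 1, k 4 - k 1], ?_, ?_⟩
        · intro s
          fin_cases s <;> simp
        · intro s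
          fin_cases s <;> simp at h0 h1 h2 ⊢ <;> linarith }
  exact h.insert1 P 2 (by decide) (by simp only [P]; decide)

end Vale.Agent.P194
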