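import Vale.Agent.P194.Defs

/-! The rank of the point-line incidence code is at most half the number of points. -/

namespace Vale.Agent.P194

open Finset

theorem rank_bernoulli (a T : ℕ) : a ^ T * (a + T) ≤ a * (a + 1) ^ T := by
  induction T with
  | zero => simp
  | succ T ih =>
    have h1 : a ^ T ≤ (a + 1) ^ T := Nat.pow_le_pow_left (Nat.le_succ a) T
    have h2 := Nat.mul_le_mul_left a ih
    have h3 := Nat.mul_le_mul_left a h1
    calc a ^ (T + 1) * (a + (T + 1)) = a * (a ^ T * (a + T)) + a * a ^ T := by ring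
      _ ≤ a * (a * (a + 1) ^ T) + a * (a + 1) ^ T := Nat.add_le_add h2 h3
      _ = a * (a + 1) ^ (T + 1) := by ring

theorem rank_half (a T : ℕ) (hT : 0 < T) (h : a ≤ T) : 2 * a ^ T ≤ (a + 1) ^ T := by
  rcases Nat.eq_zero_or_pos a with rfl | ha
  · simp [hT.ne']
  refine Nat.le_of_mul_le_mul_left ?_ ha
  refine le_trans ?_ (rank_bernoulli a T)
  calc a * (2 * a ^ T) = a ^ T * (a + a) := by ring
    _ ≤ a ^ T * (a + T) := by gcongr

/-- Monomial functions with exponents below the field size are linearly independent. -/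
theorem rank_monomials {F : Type} [Field F] [Fintype F] {n : ℕ} {J : Type} [Fintype J]
    (e : J → Fin n → ℕ) (he : Function.Injective e) (hlt : ∀ j i, e j i < Fintype.card F) :
    LinearIndependent F fun j => fun y : Fin n → F => ∏ i, y i ^ e j i := by
  classical
  rw [Fintype.linearIndependent_iff]
  intro c hc j
  let d : J → (Fin n →₀ ℕ) := fun j => Finsupp.equivFunOnFinite.symm (e j)
  have hd : Function.Injective d := Finsupp.equivFunOnFinite.symm.injective.comp he
  let p : MvPolynomial (Fin n) F := ∑ j, MvPolynomial.monomial (d j) (c j)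
  have hp : p = 0 := by
    refine MvPolynomial.eq_zero_of_eval_eq_zero (Fin n) F p (fun v => ?_) ?_
    · have := congrFun hc v
      simp only [Finset.sum_apply, Pi.smul_apply, smul_eq_mul, Pi.zero_apply] at this
      rw [← this]
      simp only [p, map_sum, MvPolynomial.eval_monomial]
      refine Finset.sum_congr rfl fun j _ => ?_
      rw [Finsupp.prod_fintype _ _ (by simp)]
      simp [d]
    · refine Submodule.sum_mem _ fun j _ => ?_
      rw [MvPolynomial.mem_restrictDegree]
      intro s hs i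
      have h1 := MvPolynomial.support_monomial_subset hs
      rw [Finset.mem_singleton] at h1
      have := hlt j i
      simp only [h1, d, Finsupp.equivFunOnFinite_symm_apply_apply]
      omega
  have h2 := congrArg (MvPolynomial.coeff (d j)) hp
  simp only [p, MvPolynomial.coeff_sum, MvPolynomial.coeff_monomial, hd.eq_iff,
    MvPolynomial.coeff_zero] at h2
  simpa using h2

theorem rank_sum_low {F : Type} [Field F] [Fintype F] {n : ℕ} (u v : Fin n → F)
    (e : Fin n → ℕ) (he : ∑ i, e i < Fintype.card F - 1) :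
    ∑ s : F, ∏ i, (v i * s + u i) ^ e i = 0 := by
  classical
  let p : Polynomial F := ∏ i, (Polynomial.C (v i) * Polynomial.X + Polynomial.C (u i)) ^ e i
  have hdeg : p.natDegree ≤ ∑ i, e i := by
    refine (Polynomial.natDegree_prod_le _ _).trans (Finset.sum_le_sum fun i _ => ?_)
    simpa using Polynomial.natDegree_pow_le_of_le (e i)
      (Polynomial.natDegree_linear_le (a := v i) (b := u i))
  have h1 : ∀ s : F, ∏ i, (v i * s + u i) ^ e i = p.eval s := by
    intro s
    simp [p, Polynomial.eval_prod]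
  simp only [h1, Polynomial.eval_eq_sum_range]
  rw [Finset.sum_comm]
  refine Finset.sum_eq_zero fun k hk => ?_
  rw [← Finset.mul_sum, FiniteField.sum_pow_lt_card_sub_one F k, mul_zero]
  rw [Finset.mem_range] at hk
  omega

theorem rank_pow_mod {F : Type} [Field F] [Fintype F] (β T : ℕ) (hF : Fintype.card F = β ^ T)
    (x : F) (k : ℕ) : x ^ β ^ (k % T) = x ^ β ^ k := by
  conv_rhs => rw [← Nat.mod_add_div k T, pow_add, pow_mul, pow_mul, ← hF]
  rw [FiniteField.pow_card_pow]

theorem rank_sum_window {F : Type} [Field F] [Fintype F] [CharP F 2] (h T n β : ℕ) (hβ : β = 2 ^ h)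
    (hF : Fintype.card F = β ^ (T + 1)) (hn : n + 1 ≤ β) (hh : 0 < h)
    (u v : Fin n → F) (eps : Fin (T + 1) → Fin n → Fin β) (b0 : Fin (T + 1))
    (hb : ∀ i, (eps b0 i : ℕ) = 0) :
    ∑ s : F, ∏ i, (v i * s + u i) ^ (∑ b, (eps b i : ℕ) * β ^ (b : ℕ)) = 0 := by
  classical
  let j : Fin (T + 1) := Fin.last T - b0
  have hβ2 : 2 ≤ β := by
    calc 2 = 2 ^ 1 := rfl
      _ ≤ 2 ^ h := Nat.pow_le_pow_right (by norm_num) hh
      _ = β := hβ.symm
  refine (pow_eq_zero_iff (n := 2 ^ (h * (j : ℕ))) (by positivity)).1 ?_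
  rw [sum_pow_char_pow, pow_mul, ← hβ]
  let e : Fin n → ℕ := fun i => ∑ c : Fin T, (eps (c.castSucc - j) i : ℕ) * β ^ (c : ℕ)
  have h1 : ∀ (y : F) i, (y ^ (∑ b, (eps b i : ℕ) * β ^ (b : ℕ))) ^ β ^ (j : ℕ) = y ^ e i := by
    intro y i
    have h2 : e i = ∑ c : Fin (T + 1), (eps (c - j) i : ℕ) * β ^ (c : ℕ) := by
      rw [Fin.sum_univ_castSucc]
      have : Fin.last T - j = b0 := by simp [j]
      simp [e, this, hb]
    rw [h2, ← Equiv.sum_comp (Equiv.addRight j)
      (fun c : Fin (T + 1) => (eps (c - j) i : ℕ) * β ^ (c : ℕ)), ← pow_mul, Finset.sum_mul,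
      ← Finset.prod_pow_eq_pow_sum, ← Finset.prod_pow_eq_pow_sum]
    refine Finset.prod_congr rfl fun b _ => ?_
    simp only [Equiv.coe_addRight, add_sub_cancel_right, Fin.val_add]
    rw [mul_assoc, ← pow_add, pow_mul, pow_mul, rank_pow_mod β (T + 1) hF]
  simp only [← Finset.prod_pow, h1]
  apply rank_sum_low
  have h3 : ∀ i, e i + 1 ≤ β ^ T := fun i =>
    (finFunctionFinEquiv fun c : Fin T => eps (c.castSucc - j) i).isLt
  have h4 : ∑ i, (e i + 1) ≤ n * β ^ T := by
    simpa using Finset.sum_le_card_nsmul Finset.univ _ _ fun i _ => h3 i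
  rw [Finset.sum_add_distrib] at h4
  simp only [Finset.sum_const, Finset.card_univ, Fintype.card_fin, smul_eq_mul, mul_one] at h4
  rw [hF, pow_succ]
  have h5 : 1 ≤ β ^ T := Nat.one_le_pow _ _ (by omega)
  have h6 : (n + 1) * β ^ T ≤ β * β ^ T := Nat.mul_le_mul_right _ hn
  rcases Nat.eq_zero_or_pos n with rfl | hn0
  · have : 2 * β ^ T ≤ β * β ^ T := Nat.mul_le_mul_right _ hβ2
    rw [mul_comm (β ^ T)]
    omega
  · rw [mul_comm (β ^ T)]
    rw [add_mul] at h6
    omega

theorem rank_field {F : Type} [Field F] [Fintype F] [CharP F 2] (h T : ℕ)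
    (hF : Fintype.card F = (2 ^ h) ^ (T + 1)) (hh : 0 < h)
    (B : Type) [AddCommGroup B] [Module F B] [Fintype B]
    (hn : Module.finrank F (F × B) + 1 ≤ 2 ^ h)
    (hT : (2 ^ h) ^ Module.finrank F (F × B) ≤ T + 1) :
    2 * Module.finrank F (lineCode F B) ≤ Nat.card (F × B) := by
  classical
  set n := Module.finrank F (F × B) with hn'
  let co : (F × B) ≃ₗ[F] (Fin n → F) := (Module.finBasis F (F × B)).equivFun
  let z : Fin n → Fin (2 ^ h) := fun _ => ⟨0, by positivity⟩
  let Bad : Finset (Fin (T + 1) → Fin n → Fin (2 ^ h)) :=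
    Fintype.piFinset fun _ => Finset.univ.erase z
  let J := {eps // eps ∉ Bad}
  let e : J → Fin n → ℕ := fun eps i => ∑ b, (eps.1 b i : ℕ) * (2 ^ h) ^ (b : ℕ)
  have he1 : ∀ eps i, e eps i = (finFunctionFinEquiv fun b => eps.1 b i : ℕ) := fun _ _ => rfl
  have he : Function.Injective e := by
    intro a b hab
    refine Subtype.ext (funext fun c => funext fun i => ?_)
    have h1 := congrFun hab i
    rw [he1, he1, Fin.val_inj, Equiv.apply_eq_iff_eq] at h1
    exact congrFun h1 c
  have hli := rank_monomials (F := F) e he (fun j i => by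
    rw [he1, hF]; exact Fin.isLt _)
  let M : Matrix J (F × B) F := Matrix.of fun eps x => ∏ i, co x i ^ e eps i
  have hM : LinearIndependent F M.row := by
    have := hli.map' (LinearMap.funLeft F F co) (LinearMap.ker_eq_bot.2
      (LinearMap.funLeft_injective_of_surjective F F co co.surjective))
    exact this
  have hrank : Module.finrank F (LinearMap.range M.mulVecLin) = Fintype.card J :=
    hM.rank_matrix
  have hker : lineCode F B ≤ LinearMap.ker M.mulVecLin := by
    unfold lineCode
    rw [Submodule.span_le]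
    rintro _ ⟨⟨a, η⟩, rfl⟩
    rw [SetLike.mem_coe, LinearMap.mem_ker]
    funext eps
    obtain ⟨b0, hb0⟩ : ∃ b0, eps.1 b0 = z := by
      have := eps.2
      simpa [Bad, Fintype.mem_piFinset] using this
    have h1 := rank_sum_window h T n _ rfl hF hn hh (co (0, a)) (co (1, η)) eps.1 b0
      (fun i => by rw [hb0])
    rw [Pi.zero_apply, ← h1]
    simp only [Matrix.mulVecLin_apply, Matrix.mulVec, dotProduct, M, Matrix.of_apply, lineInd,
      Fintype.sum_prod_type, mul_ite, mul_one, mul_zero]
    refine Finset.sum_congr rfl fun s _ => ?_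
    rw [Finset.sum_eq_single (a + s • η)]
    · rw [if_pos rfl]
      refine Finset.prod_congr rfl fun i _ => ?_
      have h2 : ((s, a + s • η) : F × B) = s • ((1, η) : F × B) + (0, a) := by
        ext <;> simp [add_comm]
      rw [h2, map_add, map_smul]
      simp [e, mul_comm]
    · intro y _ hy
      rw [if_neg hy]
    · simp
  have h1 := Submodule.finrank_mono hker
  have h2 := LinearMap.finrank_range_add_finrank_ker M.mulVecLin
  rw [hrank, Module.finrank_fintype_fun_eq_card] at h2
  have hP : Fintype.card (F × B) = ((2 ^ h) ^ n) ^ (T + 1) := by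
    rw [Fintype.card_congr co.toEquiv, Fintype.card_fun, Fintype.card_fin, hF, ← pow_mul,
      ← pow_mul, ← pow_mul, ← pow_mul]
    congr 1; ring
  have hJ : Fintype.card J + ((2 ^ h) ^ n - 1) ^ (T + 1) = ((2 ^ h) ^ n) ^ (T + 1) := by
    have h3 : Fintype.card J = Fintype.card (Fin (T + 1) → Fin n → Fin (2 ^ h)) - Bad.card := by
      simp only [J]
      rw [Fintype.card_subtype_compl, Fintype.card_coe]
    have h4 : Bad.card = ((2 ^ h) ^ n - 1) ^ (T + 1) := by
      simp [Bad, Fintype.card_piFinset, Finset.card_erase_of_mem]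
    have h5 : Fintype.card (Fin (T + 1) → Fin n → Fin (2 ^ h)) = ((2 ^ h) ^ n) ^ (T + 1) := by
      simp
    have h6 := Finset.card_le_univ Bad
    omega
  have h7 : 1 ≤ (2 ^ h) ^ n := Nat.one_le_pow _ _ (by positivity)
  have h8 := rank_half ((2 ^ h) ^ n - 1) (T + 1) (Nat.succ_pos T) (by omega)
  rw [Nat.sub_add_cancel h7] at h8
  rw [Nat.card_eq_fintype_card]
  omega

theorem rank_bound (m : ℕ) : ∃ t : ℕ, 2 ≤ t ∧
    ∀ (B : Type) [AddCommGroup B] [Module (GaloisField 2 t) B] [Fintype B],
      Module.finrank (GaloisField 2 t) B ≤ m →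
      2 * Module.finrank (GaloisField 2 t) (lineCode (GaloisField 2 t) B) ≤
        Nat.card (GaloisField 2 t × B) := by
  obtain ⟨T, hT⟩ : ∃ T, T = (2 ^ (m + 2)) ^ (m + 1) := ⟨_, rfl⟩
  have ht : 2 ≤ (m + 2) * (T + 1) := by nlinarith [Nat.zero_le m, Nat.zero_le T]
  refine ⟨(m + 2) * (T + 1), ht, fun B _ _ _ hB => ?_⟩
  letI : Fintype (GaloisField 2 ((m + 2) * (T + 1))) := Fintype.ofFinite _
  have hn : Module.finrank (GaloisField 2 ((m + 2) * (T + 1)))
      (GaloisField 2 ((m + 2) * (T + 1)) × B) ≤ m + 1 := by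
    rw [Module.finrank_prod, Module.finrank_self]; omega
  refine rank_field (m + 2) T ?_ (by omega) B ?_ ?_
  · rw [← Nat.card_eq_fintype_card, GaloisField.card 2 _ (by omega), pow_mul]
  · have := Nat.lt_two_pow_self (n := m + 2)
    omega
  · have := Nat.pow_le_pow_right (n := 2 ^ (m + 2)) (by positivity) hn
    omega

end Vale.Agent.P194
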